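import Vale.Agent.P141.H103.PlaneW

/-!
# The changes of the plane functional, paid by node caps

Families of matrices indexed by a point `x₀`, affected squares indexed by the cell of `x₀`.
`gapSum`: the gains of all scales, summed over `x₀`, are at most `146 cP √(gA gB) 8 ^ N` when every
cube of scale `k < N` has energy at most `gA 2 ^ k` (`gB 2 ^ k`).
-/

namespace Vale.Agent.P141.H588G

open Finset Matrix Vale.Agent.P141.PL Vale.Agent.P141.PL.H103 Vale.Agent.P141.H103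

noncomputable section

open scoped Classical

/-! ### One square -/

section one

variable {ι : Type*} [Fintype ι]

/-- energy of a matrix -/
def S2 (X : Matrix ι ι ℝ) : ℝ := (X * X).trace

theorem S2_nonneg {X : Matrix ι ι ℝ} (hX : Xᵀ = X) : 0 ≤ S2 X := P075.trace_sq_nonneg hX

theorem S2_smul (μ : ℝ) (X : Matrix ι ι ℝ) : S2 (μ • X) = μ ^ 2 * S2 X := by
  unfold S2
  rw [Matrix.smul_mul, Matrix.mul_smul, trace_smul, trace_smul, smul_eq_mul, smul_eq_mul]
  ring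

omit [Fintype ι] in
theorem psd_tr {X : Matrix ι ι ℝ} (hX : X.PosSemidef) : Xᵀ = X := by
  have := hX.isHermitian.eq
  rwa [conjTranspose_eq_transpose_of_trivial] at this

theorem trace_mul_le (X Y : Matrix ι ι ℝ) (hX : Xᵀ = X) (hY : Yᵀ = Y) :
    (X * Y).trace ≤ (1 / 2) * (S2 X + S2 Y) := by
  have h := (abs_le.1 (abs_trace_le hX hY)).2
  unfold S2
  linarith

/-- `tr X² - tr Y² ≤ 2 tr (X E)` for `X - Y ≤ E` -/
theorem S2_sub_le [DecidableEq ι] {X Y E : Matrix ι ι ℝ} (hX : X.PosSemidef) (hY : Yᵀ = Y)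
    (hE : (E - (X - Y)).PosSemidef) : S2 X ≤ S2 Y + 2 * (X * E).trace := by
  have h1 := P075.trace_mul_nonneg hX hE
  have h2 := P075.trace_sq_nonneg (B := X - Y) (by rw [transpose_sub, psd_tr hX, hY])
  have c := trace_mul_comm Y X
  unfold S2
  simp only [Matrix.sub_mul, Matrix.mul_sub, trace_sub] at h1 h2
  rw [c] at h2
  linarith

/-- energy of a sum -/
theorem S2_sum_le {κ : Type*} (s : Finset κ) (X : κ → Matrix ι ι ℝ) (hX : ∀ i, (X i)ᵀ = X i) :
    S2 (∑ i ∈ s, X i) ≤ (s.card : ℝ) * ∑ i ∈ s, S2 (X i) := by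
  have e : S2 (∑ i ∈ s, X i) = ∑ i ∈ s, ∑ j ∈ s, (X i * X j).trace := by
    unfold S2
    rw [Finset.sum_mul, trace_sum]
    refine sum_congr rfl fun i _ => ?_
    rw [Finset.mul_sum, trace_sum]
  rw [e]
  have h : ∑ i ∈ s, ∑ j ∈ s, (X i * X j).trace ≤
      ∑ i ∈ s, ∑ j ∈ s, (1 / 2) * (S2 (X i) + S2 (X j)) :=
    sum_le_sum fun i _ => sum_le_sum fun j _ => trace_mul_le _ _ (hX i) (hX j)
  refine h.trans (le_of_eq ?_)
  simp only [← Finset.mul_sum, sum_add_distrib, sum_const, nsmul_eq_mul]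
  ring

end one

/-! ### Outer averages -/

section out

variable {ι : Type*}

theorem iv_zero (z : ℤ) : iv 0 z = {z} := by
  ext x
  simp only [iv, mem_Ico, mem_singleton, pow_zero, one_mul]
  omega

theorem card_iv' (r : ℕ) (n : ℤ) : ((iv r n).card : ℝ) = 2 ^ r := by
  unfold iv
  rw [Int.card_Ico]
  have : (2 ^ r * n + 2 ^ r - 2 ^ r * n : ℤ) = ((2 ^ r : ℕ) : ℤ) := by push_cast; ring
  rw [this, Int.toNat_natCast]
  push_cast
  rfl

theorem sum_iv_iv (r : ℕ) : ∀ (j : ℕ) (R : ℤ) (f : ℤ → ℝ),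
    ∑ n ∈ iv j R, ∑ n' ∈ iv r n, f n' = ∑ n' ∈ iv (j + r) R, f n' := by
  induction r with
  | zero =>
    intro j R f
    rw [Nat.add_zero]
    refine sum_congr rfl fun n _ => ?_
    rw [iv_zero, sum_singleton]
  | succ r ih =>
    intro j R f
    rw [← Nat.add_assoc, H588.sum_iv_succ (j + r) R f, ← ih j R]
    exact sum_congr rfl fun n _ => H588.sum_iv_succ r n f

theorem ix_ix' (k l : ℕ) (x : ℤ) : ix l (ix k x) = ix (k + l) x := by
  unfold ix
  rw [pow_add, Int.ediv_ediv_of_nonneg (by positivity)]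

theorem iv_sub {j r : ℕ} {R n n' : ℤ} (hn : n ∈ iv j R) (hn' : n' ∈ iv r n) :
    n' ∈ iv (j + r) R := by
  rw [mem_iv] at hn hn' ⊢
  rw [Nat.add_comm, ← ix_ix', hn', hn]

theorem out_mean {N k : ℕ} {P : ℕ → ℤ → ℤ → Matrix ι ι ℝ} (hO : OutM N k P) (m : ℤ) (r : ℕ) :
    ∀ k', k ≤ k' → k' + r ≤ N → ∀ n,
      P (k' + r) n m = ((2 : ℝ) ^ r)⁻¹ • ∑ n' ∈ iv r n, P k' n' m := by
  induction r with
  | zero =>
    intro k' _ _ n
    rw [iv_zero, sum_singleton, pow_zero, inv_one, one_smul, Nat.add_zero]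
  | succ r ih =>
    intro k' h1 h2 n
    have e1 : k' + (r + 1) = (k' + 1) + r := by ring
    rw [e1, ih (k' + 1) (by omega) (by omega) n]
    rw [sum_congr rfl fun n' _ => hO k' h1 (by omega) n' m]
    ext j j'
    rw [Matrix.smul_apply, Matrix.smul_apply, Matrix.sum_apply, Matrix.sum_apply,
      H588.sum_iv_succ r n (fun n' => P k' n' m j j')]
    simp only [Matrix.smul_apply, Matrix.add_apply, smul_eq_mul, ← mul_sum]
    rw [pow_succ, mul_inv]
    ring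

/-- average over the block of `2 ^ r` outer cells with index `n` -/
def avS (s : ℤ → ℤ → ℝ) (r : ℕ) (n m : ℤ) : ℝ := ((2 : ℝ) ^ r)⁻¹ * ∑ n' ∈ iv r n, s n' m

variable [Fintype ι]

theorem rect_le {N k r : ℕ} {P : ℕ → ℤ → ℤ → Matrix ι ι ℝ} (hO : OutM N k P)
    (sP : ∀ a n m, (P a n m)ᵀ = P a n m) (hr : k + r ≤ N) (n m : ℤ) :
    S2 (P (k + r) n m) ≤ avS (fun n m => S2 (P k n m)) r n m := by
  rw [out_mean hO m r k le_rfl hr n, S2_smul]
  have h := S2_sum_le (iv r n) (fun n' => P k n' m) (fun n' => sP k n' m)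
  rw [card_iv'] at h
  unfold avS
  have h2 : (((2 : ℝ) ^ r)⁻¹) ^ 2 * (2 ^ r * ∑ n' ∈ iv r n, S2 (P k n' m))
      = ((2 : ℝ) ^ r)⁻¹ * ∑ n' ∈ iv r n, S2 (P k n' m) := by
    rw [pow_two, mul_assoc, ← mul_assoc ((2 : ℝ) ^ r)⁻¹ (2 ^ r),
      inv_mul_cancel₀ (by positivity), one_mul]
  rw [← h2]
  exact mul_le_mul_of_nonneg_left h (by positivity)

/-- the change of the energy of a rectangle -/
theorem ch_pt {N k r : ℕ} {P P' : ℕ → ℤ → ℤ → Matrix ι ι ℝ} (oP : OutM N k P)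
    (oP' : OutM N k P') (pP : ∀ a n m, (P a n m).PosSemidef)
    (pP' : ∀ a n m, (P' a n m).PosSemidef) (hr : k + r ≤ N) {n m : ℤ} {q : ℤ → ℤ → Prop}
    (ag : ∀ n' ∈ iv r n, ¬ q n' m → P' k n' m = P k n' m) :
    S2 (P' (k + r) n m) ≤ S2 (P (k + r) n m) + ((2 : ℝ) ^ r)⁻¹ * ∑ n' ∈ iv r n,
      (if q n' m then avS (fun n m => S2 (P' k n m)) r n m + S2 (P' k n' m) else 0) := by
  set E : Matrix ι ι ℝ := ((2 : ℝ) ^ r)⁻¹ • ∑ n' ∈ iv r n,
    (if q n' m then P' k n' m else 0) with hE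
  have hD : (E - (P' (k + r) n m - P (k + r) n m)).PosSemidef := by
    have e : E - (P' (k + r) n m - P (k + r) n m) = ((2 : ℝ) ^ r)⁻¹ • ∑ n' ∈ iv r n,
        (if q n' m then P k n' m else 0) := by
      rw [hE, out_mean oP m r k le_rfl hr n, out_mean oP' m r k le_rfl hr n, ← smul_sub,
        ← smul_sub, ← sum_sub_distrib, ← sum_sub_distrib]
      congr 1
      refine sum_congr rfl fun n' hn' => ?_
      split_ifs with hq
      · abel
      · rw [ag n' hn' hq]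
        simp
    rw [e]
    refine PosSemidef.smul (posSemidef_sum _ fun n' _ => ?_) (by positivity)
    split_ifs
    · exact pP ..
    · exact PosSemidef.zero
  have h1 := S2_sub_le (pP' (k + r) n m) (psd_tr (pP (k + r) n m)) hD
  refine h1.trans (add_le_add_right ?_ _)
  rw [hE, Matrix.mul_smul, trace_smul, smul_eq_mul, Finset.mul_sum, trace_sum, mul_left_comm]
  refine mul_le_mul_of_nonneg_left ?_ (by positivity)
  rw [Finset.mul_sum]
  refine sum_le_sum fun n' _ => ?_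
  split_ifs with hq
  · have h2 := trace_mul_le _ _ (psd_tr (pP' (k + r) n m)) (psd_tr (pP' k n' m))
    have h3 := rect_le oP' (fun a n m => psd_tr (pP' a n m)) hr n m
    linarith
  · rw [Matrix.mul_zero, trace_zero, mul_zero]

/-- **The change of the own energy** of outer scale `k + r`. -/
theorem EW_ch {N k r : ℕ} {R S : ℤ} {P P' : ℕ → ℤ → ℤ → Matrix ι ι ℝ} (oP : OutM N k P)
    (oP' : OutM N k P') (pP : ∀ a n m, (P a n m).PosSemidef)
    (pP' : ∀ a n m, (P' a n m).PosSemidef) (hr : k + r ≤ N) {q : ℤ → ℤ → Prop}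
    (ag : ∀ n ∈ iv (N - k) R, ∀ m ∈ iv (N - k) S, ¬ q n m → P' k n m = P k n m) :
    EW N R S k P' (k + r) ≤ EW N R S k P (k + r) + 4 ^ k * ∑ m ∈ iv (N - k) S,
      ∑ n ∈ iv (N - k) R, (if q n m then
        avS (fun n m => S2 (P' k n m)) r (ix r n) m + S2 (P' k n m) else 0) := by
  have e0 : N - (k + r) + r = N - k := by omega
  have h1 : ∀ m ∈ iv (N - k) S, ∑ n ∈ iv (N - (k + r)) R, S2 (P' (k + r) n m) ≤
      ∑ n ∈ iv (N - (k + r)) R, S2 (P (k + r) n m) + ((2 : ℝ) ^ r)⁻¹ *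
      ∑ n ∈ iv (N - k) R, (if q n m then
        avS (fun n m => S2 (P' k n m)) r (ix r n) m + S2 (P' k n m) else 0) := by
    intro m hm
    rw [← e0, ← sum_iv_iv r (N - (k + r)) R, Finset.mul_sum, ← sum_add_distrib]
    refine sum_le_sum fun n hn => ?_
    refine (ch_pt oP oP' pP pP' hr (q := q) fun n' hn' hq =>
      ag n' (by rw [← e0]; exact iv_sub hn hn') m hm hq).trans (le_of_eq ?_)
    congr 2
    refine sum_congr rfl fun n' hn' => ?_
    rw [mem_iv.1 hn']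
  have h2 : ((2 : ℝ) ^ (k + r) * 2 ^ k) * ((2 : ℝ) ^ r)⁻¹ = 4 ^ k := by
    rw [show (4 : ℝ) = 2 * 2 by norm_num, mul_pow, pow_add]
    field_simp
  have h3 := mul_le_mul_of_nonneg_left (sum_le_sum h1)
    (show (0 : ℝ) ≤ 2 ^ (k + r) * 2 ^ k by positivity)
  rw [sum_add_distrib, mul_add, ← Finset.mul_sum, ← mul_assoc _ ((2 : ℝ) ^ r)⁻¹, h2] at h3
  exact h3

/-- **The change of the plane functional.** -/
theorem MW_ch {N k : ℕ} {R S T c : ℤ} {p p' u u' : ℤ → ℤ → Matrix ι ι ℝ}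
    (pP : ∀ n m, (p n m).PosSemidef) (pP' : ∀ n m, (p' n m).PosSemidef)
    (pQ : ∀ n m, (u n m).PosSemidef) (pQ' : ∀ n m, (u' n m).PosSemidef)
    {q q' : ℤ → ℤ → Prop}
    (ag : ∀ n ∈ iv (N - k) R, ∀ m ∈ iv (N - k) S, ¬ q n m → p' n m = p n m)
    (ag' : ∀ n ∈ iv (N - k) T, ∀ m ∈ iv (N - k) S, ¬ q' n m → u' n m = u n m) :
    MW N R S T k c p' u' ≤ MW N R S T k c p u
      + 4 ^ k * (∑ m ∈ iv (N - k) S, ∑ n ∈ iv (N - k) R, (if q n m then
          (1 / 2) * (S2 (p' n m) + (if c - m - n ∈ iv (N - k) T then S2 (u' (c - m - n) m) else 0))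
          else 0))
      + 4 ^ k * (∑ m ∈ iv (N - k) S, ∑ n ∈ iv (N - k) T, (if q' n m then
          (1 / 2) * (S2 (u' n m) + (if c - m - n ∈ iv (N - k) R then S2 (p' (c - m - n) m) else 0))
          else 0)) := by
  unfold MW
  rw [← mul_add, ← mul_add]
  refine mul_le_mul_of_nonneg_left ?_ (by positivity)
  rw [← sum_add_distrib, ← sum_add_distrib]
  refine sum_le_sum fun m hm => ?_
  set g : ℤ → ℝ := fun n => (if q' n m then
    (1 / 2) * (S2 (u' n m) + (if c - m - n ∈ iv (N - k) R then S2 (p' (c - m - n) m) else 0))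
    else 0) with hg
  have g0 : ∀ n, 0 ≤ g n := by
    intro n
    simp only [hg]
    split_ifs
    · have := S2_nonneg (psd_tr (pQ' n m))
      have := S2_nonneg (psd_tr (pP' (c - m - n) m))
      positivity
    · have := S2_nonneg (psd_tr (pQ' n m))
      positivity
    · exact le_rfl
  have h := H588.sum_refl_le (N - k) R T (c - m) g g0
  refine le_trans ?_ (add_le_add_right h _)
  rw [← sum_add_distrib, ← sum_add_distrib]
  refine sum_le_sum fun n hn => ?_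
  have s1 := S2_nonneg (psd_tr (pP' n m))
  by_cases hc : c - m - n ∈ iv (N - k) T
  · simp only [if_pos hc]
    have e : c - m - (c - m - n) = n := by ring
    have s2 := S2_nonneg (psd_tr (pQ' (c - m - n) m))
    have h2 := trace_mul_le _ _ (psd_tr (pP' n m)) (psd_tr (pQ' (c - m - n) m))
    have h3 := P075.trace_mul_nonneg (pP n m) (pQ (c - m - n) m)
    by_cases h1 : q n m
    · rw [if_pos h1]
      have := g0 (c - m - n)
      linarith
    · rw [if_neg h1]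
      by_cases h1' : q' (c - m - n) m
      · simp only [hg]
        rw [if_pos h1', e, if_pos hn]
        linarith
      · rw [ag n hn m hm h1, ag' _ hc m hm h1']
        have := g0 (c - m - n)
        linarith
  · rw [if_neg hc, if_neg hc, if_neg hc]
    split_ifs
    · linarith
    · simp

/-- the change terms of one side -/
def xA (N : ℕ) (R S T : ℤ) (k : ℕ) (c : ℤ) (q : ℤ → ℤ → Prop) (s t : ℤ → ℤ → ℝ) : ℝ :=
  4 ^ k * ∑ m ∈ iv (N - k) S, ∑ n ∈ iv (N - k) R, (if q n m then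
    (1 / 2) * (s n m + (if c - m - n ∈ iv (N - k) T then t (c - m - n) m else 0))
      + 9 * ∑ r ∈ range (N - k + 1), (3 / 4) ^ r * (avS s r (ix r n) m + s n m) else 0)

theorem WW_ch {N k : ℕ} (hk : k ≤ N) {R S : ℤ} {P P' : ℕ → ℤ → ℤ → Matrix ι ι ℝ}
    (oP : OutM N k P)
    (oP' : OutM N k P') (pP : ∀ a n m, (P a n m).PosSemidef)
    (pP' : ∀ a n m, (P' a n m).PosSemidef) {q : ℤ → ℤ → Prop}
    (ag : ∀ n ∈ iv (N - k) R, ∀ m ∈ iv (N - k) S, ¬ q n m → P' k n m = P k n m) :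
    WW N k (EW N R S k P') ≤ WW N k (EW N R S k P) + 4 ^ k * ∑ m ∈ iv (N - k) S,
      ∑ n ∈ iv (N - k) R, (if q n m then ∑ r ∈ range (N - k + 1), (3 / 4) ^ r *
        (avS (fun n m => S2 (P' k n m)) r (ix r n) m + S2 (P' k n m)) else 0) := by
  unfold WW
  have e : (4 : ℝ) ^ k * ∑ m ∈ iv (N - k) S,
      ∑ n ∈ iv (N - k) R, (if q n m then ∑ r ∈ range (N - k + 1), (3 / 4 : ℝ) ^ r *
        (avS (fun n m => S2 (P' k n m)) r (ix r n) m + S2 (P' k n m)) else 0)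
      = ∑ r ∈ range (N - k + 1), (3 / 4 : ℝ) ^ r * (4 ^ k * ∑ m ∈ iv (N - k) S,
      ∑ n ∈ iv (N - k) R, (if q n m then
        avS (fun n m => S2 (P' k n m)) r (ix r n) m + S2 (P' k n m) else 0)) := by
    simp only [Finset.mul_sum]
    rw [sum_comm' (s := range (N - k + 1)) (t := fun _ => iv (N - k) S) (t' := iv (N - k) S)
      (s' := fun _ => range (N - k + 1)) (by simp)]
    refine sum_congr rfl fun m _ => ?_
    rw [sum_comm' (s := range (N - k + 1)) (t := fun _ => iv (N - k) R) (t' := iv (N - k) R)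
      (s' := fun _ => range (N - k + 1)) (by simp)]
    refine sum_congr rfl fun n _ => ?_
    split_ifs
    · rw [Finset.mul_sum]
      refine sum_congr rfl fun r _ => ?_
      ring
    · simp
  rw [e, ← sum_add_distrib]
  refine sum_le_sum fun r hr => ?_
  have := mem_range.1 hr
  rw [← mul_add]
  exact mul_le_mul_of_nonneg_left (EW_ch oP oP' pP pP' (by omega) ag) (by positivity)

/-- **The change of the whole functional.** -/
theorem total_ch {N k : ℕ} (hk : k ≤ N) {R S T c : ℤ} {P P' Q Q' : ℕ → ℤ → ℤ → Matrix ι ι ℝ}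
    (oP : OutM N k P) (oP' : OutM N k P') (oQ : OutM N k Q) (oQ' : OutM N k Q')
    (pP : ∀ a n m, (P a n m).PosSemidef) (pP' : ∀ a n m, (P' a n m).PosSemidef)
    (pQ : ∀ a n m, (Q a n m).PosSemidef) (pQ' : ∀ a n m, (Q' a n m).PosSemidef)
    {q q' : ℤ → ℤ → Prop}
    (ag : ∀ n ∈ iv (N - k) R, ∀ m ∈ iv (N - k) S, ¬ q n m → P' k n m = P k n m)
    (ag' : ∀ n ∈ iv (N - k) T, ∀ m ∈ iv (N - k) S, ¬ q' n m → Q' k n m = Q k n m) :
    MW N R S T k c (P' k) (Q' k) + 9 * (WW N k (EW N R S k P') + WW N k (EW N T S k Q')) ≤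
    MW N R S T k c (P k) (Q k) + 9 * (WW N k (EW N R S k P) + WW N k (EW N T S k Q)) +
      (xA N R S T k c q (fun n m => S2 (P' k n m)) (fun n m => S2 (Q' k n m)) +
       xA N T S R k c q' (fun n m => S2 (Q' k n m)) (fun n m => S2 (P' k n m))) := by
  have h1 := MW_ch (N := N) (k := k) (R := R) (S := S) (T := T) (c := c) (p := P k) (p' := P' k)
    (u := Q k) (u' := Q' k) (pP k) (pP' k) (pQ k) (pQ' k) ag ag'
  have h2 := WW_ch hk oP oP' pP pP' ag
  have h3 := WW_ch hk oQ oQ' pQ pQ' ag'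
  have e : ∀ (R T : ℤ) (q : ℤ → ℤ → Prop) (s t : ℤ → ℤ → ℝ), xA N R S T k c q s t =
      4 ^ k * (∑ m ∈ iv (N - k) S, ∑ n ∈ iv (N - k) R, (if q n m then
          (1 / 2) * (s n m + (if c - m - n ∈ iv (N - k) T then t (c - m - n) m else 0))
          else 0)) + 9 * (4 ^ k * ∑ m ∈ iv (N - k) S,
      ∑ n ∈ iv (N - k) R, (if q n m then ∑ r ∈ range (N - k + 1), (3 / 4) ^ r *
        (avS s r (ix r n) m + s n m) else 0)) := by
    intro R T q s t
    unfold xA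
    rw [mul_left_comm (9 : ℝ), ← mul_add, Finset.mul_sum (s := iv (N - k) S) (a := (9 : ℝ)),
      ← sum_add_distrib]
    congr 1
    refine sum_congr rfl fun m _ => ?_
    rw [Finset.mul_sum (s := iv (N - k) R) (a := (9 : ℝ)), ← sum_add_distrib]
    refine sum_congr rfl fun n _ => ?_
    split_ifs <;> ring
  rw [e, e]
  linarith

end out

/-! ### The sum over `x₀` -/

theorem geo4 (n : ℕ) : ∑ r ∈ range n, (3 / 4 : ℝ) ^ r ≤ 4 := by
  have h2 : ∀ n : ℕ, ∑ r ∈ range n, (3 / 4 : ℝ) ^ r = 4 - 4 * (3 / 4) ^ n := by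
    intro n
    induction n with
    | zero => simp
    | succ n ih => rw [sum_range_succ, ih, pow_succ]; ring
  rw [h2]
  have : (0 : ℝ) ≤ (3 / 4) ^ n := by positivity
  linarith

/-- the change terms under caps -/
theorem xA_cap {X : Finset ℤ} {N : ℕ} {R S T : ℤ} {k : ℕ} (hk : k ≤ N) {c : ℤ}
    {q : ℤ → ℤ → Prop} {s t : ℤ → ℤ → ℤ → ℝ} {a b : ℝ} (ha0 : 0 ≤ a) (hb0 : 0 ≤ b)
    (ha : ∀ n ∈ iv (N - k) R, ∀ m ∈ iv (N - k) S, ∑ x ∈ X, s x n m ≤ a)
    (hb : ∀ n ∈ iv (N - k) T, ∀ m ∈ iv (N - k) S, ∑ x ∈ X, t x n m ≤ b) :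
    ∑ x ∈ X, xA N R S T k c q (s x) (t x) ≤
      (1 / 2 * (a + b) + 72 * a) * (4 ^ k * ∑ m ∈ iv (N - k) S, ∑ n ∈ iv (N - k) R,
        (if q n m then 1 else 0)) := by
  unfold xA
  rw [← Finset.mul_sum, mul_left_comm]
  refine mul_le_mul_of_nonneg_left ?_ (by positivity)
  rw [sum_comm, Finset.mul_sum]
  refine sum_le_sum fun m hm => ?_
  rw [sum_comm, Finset.mul_sum]
  refine sum_le_sum fun n hn => ?_
  by_cases hq : q n m
  · simp only [if_pos hq]
    rw [sum_add_distrib, ← Finset.mul_sum, ← Finset.mul_sum, sum_add_distrib]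
    have h1 : ∑ x ∈ X, (if c - m - n ∈ iv (N - k) T then t x (c - m - n) m else 0) ≤ b := by
      split_ifs with h
      · exact hb _ h _ hm
      · simpa using hb0
    have h2 : ∑ x ∈ X, ∑ r ∈ range (N - k + 1), (3 / 4 : ℝ) ^ r *
        (avS (s x) r (ix r n) m + s x n m) ≤ 8 * a := by
      rw [sum_comm]
      have h3 : ∀ r ∈ range (N - k + 1), ∑ x ∈ X, (3 / 4 : ℝ) ^ r *
          (avS (s x) r (ix r n) m + s x n m) ≤ (3 / 4 : ℝ) ^ r * (2 * a) := by
        intro r hr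
        have hr := mem_range.1 hr
        rw [← Finset.mul_sum, sum_add_distrib]
        refine mul_le_mul_of_nonneg_left ?_ (by positivity)
        have h4 : ∑ x ∈ X, avS (s x) r (ix r n) m ≤ a := by
          unfold avS
          rw [← Finset.mul_sum, sum_comm]
          have h5 : ∑ y ∈ iv r (ix r n), ∑ x ∈ X, s x y m ≤ ∑ y ∈ iv r (ix r n), a := by
            refine sum_le_sum fun y hy => ha y ?_ m hm
            have e : N - k = N - k - r + r := by omega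
            rw [e]
            refine iv_sub (n := ix r n) ?_ hy
            rw [mem_iv] at hn ⊢
            rw [ix_ix', ← hn]
            congr 1
            omega
          rw [sum_const, nsmul_eq_mul, card_iv'] at h5
          have h6 := mul_le_mul_of_nonneg_left h5 (show (0 : ℝ) ≤ (2 ^ r)⁻¹ by positivity)
          rwa [← mul_assoc, inv_mul_cancel₀ (by positivity), one_mul] at h6
        have := ha n hn m hm
        linarith
      refine (sum_le_sum h3).trans ?_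
      rw [← sum_mul]
      have h7 := geo4 (N - k + 1)
      nlinarith
    have := ha n hn m hm
    linarith
  · simp only [if_neg hq, sum_const_zero, mul_zero, le_refl]

/-- the number of affected squares -/
def cnt (N : ℕ) (R S : ℤ) (k : ℕ) (q : ℤ → ℤ → Prop) : ℝ :=
  4 ^ k * ∑ m ∈ iv (N - k) S, ∑ n ∈ iv (N - k) R, (if q n m then 1 else 0)

/-- one side of the changes, summed over `x₀` and the scales -/
theorem sum_xA {N : ℕ} {R S T t₀ : ℤ} {c : ℤ → ℕ → ℤ}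
    (hcl : ∀ k x y, ix k x = ix k y → c x k = c y k) {q : ℕ → ℤ → ℤ → ℤ → Prop}
    {s t : ℤ → ℕ → ℤ → ℤ → ℝ} {gA gB cP : ℝ} (hA : 0 ≤ gA) (hB : 0 ≤ gB)
    (capA : ∀ k < N, ∀ i ∈ iv (N - k) t₀, ∀ n ∈ iv (N - k) R, ∀ m ∈ iv (N - k) S,
      ∑ x ∈ iv k i, s x k n m ≤ gA * 2 ^ k)
    (capB : ∀ k < N, ∀ i ∈ iv (N - k) t₀, ∀ n ∈ iv (N - k) T, ∀ m ∈ iv (N - k) S,
      ∑ x ∈ iv k i, t x k n m ≤ gB * 2 ^ k)
    (pack : ∀ x ∈ iv N t₀, ∑ k ∈ range N, cnt N R S k (q k (ix k x)) ≤ cP * 4 ^ N) :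
    ∑ x ∈ iv N t₀, ∑ k ∈ range N, xA N R S T k (c x k) (q k (ix k x)) (s x k) (t x k) ≤
      (1 / 2 * (gA + gB) + 72 * gA) * (cP * 8 ^ N) := by
  set C := 1 / 2 * (gA + gB) + 72 * gA with hC
  have C0 : 0 ≤ C := by positivity
  have h1 : ∀ k ∈ range N, ∑ x ∈ iv N t₀,
      xA N R S T k (c x k) (q k (ix k x)) (s x k) (t x k) ≤
      ∑ x ∈ iv N t₀, C * cnt N R S k (q k (ix k x)) := by
    intro k hk
    have hk := mem_range.1 hk
    have e : iv N t₀ = iv (N - k + k) t₀ := by rw [Nat.sub_add_cancel hk.le]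
    rw [e, ← sum_iv_iv, ← sum_iv_iv]
    refine sum_le_sum fun i hi => ?_
    have e1 : ∑ x ∈ iv k i, xA N R S T k (c x k) (q k (ix k x)) (s x k) (t x k) =
        ∑ x ∈ iv k i, xA N R S T k (c (2 ^ k * i) k) (q k i) (s x k) (t x k) := by
      refine sum_congr rfl fun x hx => ?_
      have hx := mem_iv.1 hx
      have : ix k (2 ^ k * i) = i := by
        unfold ix
        exact Int.mul_ediv_cancel_left _ (by positivity)
      rw [hcl k x (2 ^ k * i) (by rw [hx, this]), hx]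
    have e2 : ∑ x ∈ iv k i, C * cnt N R S k (q k (ix k x)) =
        (C * 2 ^ k) * cnt N R S k (q k i) := by
      rw [sum_congr rfl fun x hx => by rw [mem_iv.1 hx], sum_const, nsmul_eq_mul, card_iv']
      ring
    rw [e1, e2]
    refine (xA_cap hk.le (by positivity) (by positivity) (capA k hk i hi)
      (capB k hk i hi)).trans (le_of_eq ?_)
    unfold cnt
    rw [hC]
    ring
  rw [sum_comm]
  refine (sum_le_sum h1).trans ?_
  rw [sum_comm]
  have h2 : ∑ x ∈ iv N t₀, ∑ k ∈ range N, C * cnt N R S k (q k (ix k x)) ≤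
      ∑ x ∈ iv N t₀, C * (cP * 4 ^ N) := by
    refine sum_le_sum fun x hx => ?_
    rw [← Finset.mul_sum]
    exact mul_le_mul_of_nonneg_left (pack x hx) C0
  refine h2.trans (le_of_eq ?_)
  rw [sum_const, nsmul_eq_mul, card_iv', show (8 : ℝ) = 2 * 4 by norm_num, mul_pow]
  ring

/-- **The gains of all scales, summed over `x₀`.** -/
theorem gapSum' {N : ℕ} {R S T t₀ : ℤ} {c : ℤ → ℕ → ℤ} (hc : ∀ x, H588.Pl (c x))
    (hcl : ∀ k x y, ix k x = ix k y → c x k = c y k)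
    {ι : ℕ → Type*} [∀ k, Fintype (ι k)]
    {P P' Q Q' : ℤ → ∀ k, ℕ → ℤ → ℤ → Matrix (ι k) (ι k) ℝ} {g : ℤ → ℕ → ℤ → ℤ → ℤ → ℝ}
    {qA qB : ℕ → ℤ → ℤ → ℤ → Prop}
    (oP : ∀ x k, k ≤ N → OutM N k (P x k)) (oQ : ∀ x k, k ≤ N → OutM N k (Q x k))
    (oP' : ∀ x k, k < N → OutM N k (P' x k)) (oQ' : ∀ x k, k < N → OutM N k (Q' x k))
    (pP : ∀ x k a n m, (P x k a n m).PosSemidef) (pQ : ∀ x k a n m, (Q x k a n m).PosSemidef)
    (pP' : ∀ x k a n m, (P' x k a n m).PosSemidef) (pQ' : ∀ x k a n m, (Q' x k a n m).PosSemidef)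
    (agP : ∀ x k, k < N → ∀ n ∈ iv (N - k) R, ∀ m ∈ iv (N - k) S, ¬ qA k (ix k x) n m →
      P' x k k n m = P x k k n m)
    (agQ : ∀ x k, k < N → ∀ n ∈ iv (N - k) T, ∀ m ∈ iv (N - k) S, ¬ qB k (ix k x) n m →
      Q' x k k n m = Q x k k n m)
    (mid : ∀ x k, k < N → ∀ n n' m,
      (P x (k + 1) (k + 1) n m * Q x (k + 1) (k + 1) n' m).trace + g x k n n' m
      ≤ (1 / 2) * ((P' x k (k + 1) n (2 * m) * Q' x k (k + 1) n' (2 * m)).trace
        + (P' x k (k + 1) n (2 * m + 1) * Q' x k (k + 1) n' (2 * m + 1)).trace))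
    (hE : ∀ x k, k < N → ∀ a, k + 1 ≤ a → a ≤ N →
      EW N R S (k + 1) (P x (k + 1)) a ≤ EW N R S k (P' x k) a)
    (hF : ∀ x k, k < N → ∀ a, k + 1 ≤ a → a ≤ N →
      EW N T S (k + 1) (Q x (k + 1)) a ≤ EW N T S k (Q' x k) a)
    (zP : ∀ x n m, P x 0 0 n m = 0) (zQ : ∀ x n m, Q x 0 0 n m = 0)
    {gA gB cP : ℝ} (hA : 0 ≤ gA) (hB : 0 ≤ gB)
    (capA : ∀ k < N, ∀ i ∈ iv (N - k) t₀, ∀ n ∈ iv (N - k) R, ∀ m ∈ iv (N - k) S,
      ∑ x ∈ iv k i, S2 (P' x k k n m) ≤ gA * 2 ^ k)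
    (capB : ∀ k < N, ∀ i ∈ iv (N - k) t₀, ∀ n ∈ iv (N - k) T, ∀ m ∈ iv (N - k) S,
      ∑ x ∈ iv k i, S2 (Q' x k k n m) ≤ gB * 2 ^ k)
    (packA : ∀ x ∈ iv N t₀, ∑ k ∈ range N, cnt N R S k (qA k (ix k x)) ≤ cP * 4 ^ N)
    (packB : ∀ x ∈ iv N t₀, ∑ k ∈ range N, cnt N T S k (qB k (ix k x)) ≤ cP * 4 ^ N) :
    ∑ x ∈ iv N t₀, ∑ k ∈ range N, GW N R S T (k + 1) (c x (k + 1)) (g x k) ≤
      73 * (gA + gB) * (cP * 8 ^ N) := by
  have h1 : ∀ x, ∑ k ∈ range N, GW N R S T (k + 1) (c x (k + 1)) (g x k) ≤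
      ∑ k ∈ range N, (xA N R S T k (c x k) (qA k (ix k x)) (fun n m => S2 (P' x k k n m))
        (fun n m => S2 (Q' x k k n m)) + xA N T S R k (c x k) (qB k (ix k x))
        (fun n m => S2 (Q' x k k n m)) (fun n m => S2 (P' x k k n m))) := by
    intro x
    have h := totalW (Nat.zero_le N) (hc x) (P := P x) (P' := P' x) (Q := Q x) (Q' := Q' x)
      (R := R) (S := S) (T := T) (g := g x) (dE := fun _ _ => 0) (dF := fun _ _ => 0)
      (x := fun k => (xA N R S T k (c x k) (qA k (ix k x)) (fun n m => S2 (P' x k k n m))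
        (fun n m => S2 (Q' x k k n m)) + xA N T S R k (c x k) (qB k (ix k x))
        (fun n m => S2 (Q' x k k n m)) (fun n m => S2 (P' x k k n m))))
      (fun k _ h => oP x k h) (fun k _ h => oQ x k h) (fun k _ h => oP' x k h)
      (fun k _ h => oQ' x k h) (fun k a n m => psd_tr (pP x k a n m))
      (fun k a n m => psd_tr (pQ x k a n m)) (fun k a n m => psd_tr (pP' x k a n m))
      (fun k a n m => psd_tr (pQ' x k a n m)) (fun k _ h => mid x k h)
      (fun k _ h a h1 h2 => by rw [add_zero]; exact hE x k h a h1 h2)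
      (fun k _ h a h1 h2 => by rw [add_zero]; exact hF x k h a h1 h2)
      (fun k _ h => total_ch h.le (oP x k h.le) (oP' x k h) (oQ x k h.le) (oQ' x k h)
        (pP x k) (pP' x k) (pQ x k) (pQ' x k) (agP x k h) (agQ x k h))
    have z1 : EW N R S 0 (P x 0) 0 = 0 := by
      unfold EW
      simp [zP]
    have z2 : EW N T S 0 (Q x 0) 0 = 0 := by
      unfold EW
      simp [zQ]
    rw [z1, z2] at h
    simp only [WW, mul_zero, sum_const_zero, add_zero, zero_add] at h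
    rwa [← range_eq_Ico] at h
  refine (sum_le_sum fun x _ => h1 x).trans ?_
  simp only [sum_add_distrib]
  have q1 := sum_xA (T := T) hcl (s := fun x k n m => S2 (P' x k k n m))
    (t := fun x k n m => S2 (Q' x k k n m)) hA hB capA capB packA
  have q2 := sum_xA (T := R) hcl (s := fun x k n m => S2 (Q' x k k n m))
    (t := fun x k n m => S2 (P' x k k n m)) hB hA capB capA packB
  refine (add_le_add q1 q2).trans (le_of_eq ?_)
  ring

/-- **The gains of all scales, summed over `x₀`**, product form. -/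
theorem gapSum {N : ℕ} {R S T t₀ : ℤ} {c : ℤ → ℕ → ℤ} (hc : ∀ x, H588.Pl (c x))
    (hcl : ∀ k x y, ix k x = ix k y → c x k = c y k)
    {ι : ℕ → Type*} [∀ k, Fintype (ι k)]
    {P P' Q Q' : ℤ → ∀ k, ℕ → ℤ → ℤ → Matrix (ι k) (ι k) ℝ} {g : ℤ → ℕ → ℤ → ℤ → ℤ → ℝ}
    {qA qB : ℕ → ℤ → ℤ → ℤ → Prop}
    (oP : ∀ x k, k ≤ N → OutM N k (P x k)) (oQ : ∀ x k, k ≤ N → OutM N k (Q x k))
    (oP' : ∀ x k, k < N → OutM N k (P' x k)) (oQ' : ∀ x k, k < N → OutM N k (Q' x k))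
    (pP : ∀ x k a n m, (P x k a n m).PosSemidef) (pQ : ∀ x k a n m, (Q x k a n m).PosSemidef)
    (pP' : ∀ x k a n m, (P' x k a n m).PosSemidef) (pQ' : ∀ x k a n m, (Q' x k a n m).PosSemidef)
    (agP : ∀ x k, k < N → ∀ n ∈ iv (N - k) R, ∀ m ∈ iv (N - k) S, ¬ qA k (ix k x) n m →
      P' x k k n m = P x k k n m)
    (agQ : ∀ x k, k < N → ∀ n ∈ iv (N - k) T, ∀ m ∈ iv (N - k) S, ¬ qB k (ix k x) n m →
      Q' x k k n m = Q x k k n m)
    (mid : ∀ x k, k < N → ∀ n n' m,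
      (P x (k + 1) (k + 1) n m * Q x (k + 1) (k + 1) n' m).trace + g x k n n' m
      ≤ (1 / 2) * ((P' x k (k + 1) n (2 * m) * Q' x k (k + 1) n' (2 * m)).trace
        + (P' x k (k + 1) n (2 * m + 1) * Q' x k (k + 1) n' (2 * m + 1)).trace))
    (hE : ∀ x k, k < N → ∀ a, k + 1 ≤ a → a ≤ N →
      EW N R S (k + 1) (P x (k + 1)) a ≤ EW N R S k (P' x k) a)
    (hF : ∀ x k, k < N → ∀ a, k + 1 ≤ a → a ≤ N →
      EW N T S (k + 1) (Q x (k + 1)) a ≤ EW N T S k (Q' x k) a)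
    (zP : ∀ x n m, P x 0 0 n m = 0) (zQ : ∀ x n m, Q x 0 0 n m = 0)
    {gA gB cP : ℝ} (hA : 0 < gA) (hB : 0 < gB)
    (capA : ∀ k < N, ∀ i ∈ iv (N - k) t₀, ∀ n ∈ iv (N - k) R, ∀ m ∈ iv (N - k) S,
      ∑ x ∈ iv k i, S2 (P' x k k n m) ≤ gA * 2 ^ k)
    (capB : ∀ k < N, ∀ i ∈ iv (N - k) t₀, ∀ n ∈ iv (N - k) T, ∀ m ∈ iv (N - k) S,
      ∑ x ∈ iv k i, S2 (Q' x k k n m) ≤ gB * 2 ^ k)
    (packA : ∀ x ∈ iv N t₀, ∑ k ∈ range N, cnt N R S k (qA k (ix k x)) ≤ cP * 4 ^ N)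
    (packB : ∀ x ∈ iv N t₀, ∑ k ∈ range N, cnt N T S k (qB k (ix k x)) ≤ cP * 4 ^ N) :
    ∑ x ∈ iv N t₀, ∑ k ∈ range N, GW N R S T (k + 1) (c x (k + 1)) (g x k) ≤
      146 * √(gA * gB) * (cP * 8 ^ N) := by
  set μ : ℝ := √(√(gB / gA)) with hμ
  have hd : 0 < gB / gA := div_pos hB hA
  have m0 : 0 < μ := Real.sqrt_pos.2 (Real.sqrt_pos.2 hd)
  have m2 : μ ^ 2 = √(gB / gA) := Real.sq_sqrt (Real.sqrt_nonneg _)
  have e1 : μ ^ 2 * gA = √(gA * gB) := by
    rw [m2, Real.sqrt_div hB.le, Real.sqrt_mul hA.le]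
    have h1 := Real.sq_sqrt hA.le
    have h2 := (Real.sqrt_pos.2 hA).ne'
    field_simp
    rw [h1]
  have e2 : (μ⁻¹) ^ 2 * gB = √(gA * gB) := by
    rw [inv_pow, m2, Real.sqrt_div hB.le, Real.sqrt_mul hA.le]
    have h1 := Real.sq_sqrt hB.le
    have h2 := (Real.sqrt_pos.2 hB).ne'
    field_simp
    rw [h1]
  have h := gapSum' hc hcl (P := fun x k a n m => μ • P x k a n m)
    (P' := fun x k a n m => μ • P' x k a n m) (Q := fun x k a n m => μ⁻¹ • Q x k a n m)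
    (Q' := fun x k a n m => μ⁻¹ • Q' x k a n m) (g := g) (qA := qA) (qB := qB)
    (R := R) (S := S) (T := T) (t₀ := t₀)
    (fun x k h => (oP x k h).smul μ) (fun x k h => (oQ x k h).smul μ⁻¹)
    (fun x k h => (oP' x k h).smul μ) (fun x k h => (oQ' x k h).smul μ⁻¹)
    (fun x k a n m => (pP x k a n m).smul m0.le)
    (fun x k a n m => (pQ x k a n m).smul (inv_nonneg.2 m0.le))
    (fun x k a n m => (pP' x k a n m).smul m0.le)
    (fun x k a n m => (pQ' x k a n m).smul (inv_nonneg.2 m0.le))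
    (fun x k h n hn m hm hq => by rw [agP x k h n hn m hm hq])
    (fun x k h n hn m hm hq => by rw [agQ x k h n hn m hm hq])
    (fun x k h n n' m => by
      have := mid x k h n n' m
      simp only [Matrix.smul_mul, Matrix.mul_smul, smul_smul, inv_mul_cancel₀ m0.ne', one_smul]
      exact this)
    (fun x k h a h1 h2 => by
      simp only [EW_smul]
      exact mul_le_mul_of_nonneg_left (hE x k h a h1 h2) (sq_nonneg _))
    (fun x k h a h1 h2 => by
      simp only [EW_smul]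
      exact mul_le_mul_of_nonneg_left (hF x k h a h1 h2) (sq_nonneg _))
    (fun x n m => by rw [zP, smul_zero]) (fun x n m => by rw [zQ, smul_zero])
    (gA := √(gA * gB)) (gB := √(gA * gB)) (cP := cP) (Real.sqrt_nonneg _) (Real.sqrt_nonneg _)
    (fun k hk i hi n hn m hm => by
      simp only [S2_smul, ← Finset.mul_sum]
      refine (mul_le_mul_of_nonneg_left (capA k hk i hi n hn m hm) (sq_nonneg μ)).trans
        (le_of_eq ?_)
      rw [← e1]
      ring)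
    (fun k hk i hi n hn m hm => by
      simp only [S2_smul, ← Finset.mul_sum]
      refine (mul_le_mul_of_nonneg_left (capB k hk i hi n hn m hm) (sq_nonneg μ⁻¹)).trans
        (le_of_eq ?_)
      rw [← e2]
      ring)
    packA packB
  refine h.trans (le_of_eq ?_)
  ring

end

end Vale.Agent.P141.H588G
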