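import Vale.Agent.P141.H958.PairsE
import Vale.Agent.P141.H46.LightF

/-!
# The light pair: the sums over the killed squares

Letters of `H874` and `H46`: `b x y : κ → ℝ`, `x` hub variable, `y` outer variable; `CP`, `XP`, `QP`.
`pwV`: the sum of the masses of the killed squares of a path.
`carlV`: Carleson embedding for the saturated Gram matrices with labels; `rS_sum`: the squares of
one family reflected into the other.
-/

namespace Vale.Agent.P141.H588G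

open Finset Matrix Vale.Agent.P141.PL Vale.Agent.P141.PL.H103 Vale.Agent.P141.H103
open Vale.Agent.P075 (Ix val res phi)
open Vale.Agent.P141.H874
open Vale.Agent.P141.H46 (ms yS rS ms_nonneg yS_nonneg tr_CP4 CP_congr CP_zero)
open Vale.Agent.P141.H958 (pot pot_convex pot_nonneg pot_le_trace pot_drop trace_phi_gram chd
  sum_chd Aff mem_Aff sum_Aff PackQ Pack pack_refl lay_Aff carl_top ar ar_pos rfs four_eq anc)

noncomputable section

open scoped Classical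

variable {κ : Type*} [Fintype κ]

/-- the masses of the killed squares -/
def pwV (N : ℕ) (R S : ℤ) (Q : ℕ → ℤ → ℤ → Prop) (b : ℕ → ℤ → ℤ → κ → ℝ) : ℝ :=
  ∑ k ∈ range N, yS N S R k 1 (Q k) (b (k + 1))

/-! ### The Gram matrices -/

/-- the sample matrix -/
def CA (c : ℤ → ℤ → κ → ℝ) (k a : ℕ) (n m : ℤ) : Matrix (Ix k × κ) (Ix a) ℝ := fun p j =>
  c (2 ^ k * m + val k p.1) (2 ^ a * n + val a j) p.2

/-- the Gram matrix in the outer variable -/
def CO (c : ℤ → ℤ → κ → ℝ) (k a : ℕ) (n m : ℤ) : Matrix (Ix a) (Ix a) ℝ :=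
  (((2 : ℝ) ^ k)⁻¹ * ((2 : ℝ) ^ a)⁻¹) • ((CA c k a n m)ᵀ * CA c k a n m)

omit [Fintype κ] in
theorem CP_gram (c : ℤ → ℤ → κ → ℝ) (k a : ℕ) (n m : ℤ) :
    CP c k a n m = (((2 : ℝ) ^ k)⁻¹ * ((2 : ℝ) ^ a)⁻¹) • (CA c k a n m * (CA c k a n m)ᵀ) := by
  ext p q
  simp only [CP, BM, XR, CA, Matrix.smul_apply, Matrix.sum_apply, vecMulVec_apply, smul_eq_mul,
    Matrix.mul_apply, transpose_apply]
  rw [H588.sum_iv a n, mul_assoc]

theorem CO_psd (c : ℤ → ℤ → κ → ℝ) (k a : ℕ) (n m : ℤ) : (CO c k a n m).PosSemidef := by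
  have h := posSemidef_conjTranspose_mul_self (CA c k a n m)
  rw [conjTranspose_eq_transpose_of_trivial] at h
  exact h.smul (by positivity)

theorem CO_apply (c : ℤ → ℤ → κ → ℝ) (k a : ℕ) (n m : ℤ) (j j' : Ix a) :
    CO c k a n m j j' = (((2 : ℝ) ^ k)⁻¹ * ((2 : ℝ) ^ a)⁻¹) *
      ∑ x ∈ iv k m, c x (2 ^ a * n + val a j) ⬝ᵥ c x (2 ^ a * n + val a j') := by
  simp only [CO, CA, Matrix.smul_apply, smul_eq_mul, Matrix.mul_apply, transpose_apply,
    Fintype.sum_prod_type, dotProduct]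
  congr 1
  exact (H588.sum_iv k m (fun x => ∑ l, c x (2 ^ a * n + val a j) l *
    c x (2 ^ a * n + val a j') l)).symm

theorem CO_hub (c : ℤ → ℤ → κ → ℝ) (k a : ℕ) (n m : ℤ) :
    CO c (k + 1) a n m = (1 / 2 : ℝ) • (CO c k a n (2 * m) + CO c k a n (2 * m + 1)) := by
  ext j j'
  rw [Matrix.smul_apply, Matrix.add_apply, CO_apply, CO_apply, CO_apply, sum_iv_half, pow_succ,
    smul_eq_mul]
  field_simp

variable [DecidableEq κ]

theorem pot_sw (c : ℤ → ℤ → κ → ℝ) (k a : ℕ) (n m : ℤ) {t μ : ℝ} (ht : 0 < t) (hμ : 0 ≤ μ) :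
    pot t (μ • CP c k a n m) = pot t (μ • CO c k a n m) := by
  unfold pot
  rw [CP_gram, CO]
  simp only [smul_smul]
  rw [trace_phi_gram (by positivity), trace_smul, trace_smul, trace_mul_comm]

theorem pot_out (c : ℤ → ℤ → κ → ℝ) {k a : ℕ} (h : k ≤ a) (n m : ℤ) {t t' μ : ℝ} (ht : 0 < t)
    (ht' : 0 < t') (hμ : 0 ≤ μ) :
    pot (1 / 2 * (t + t')) (μ • CP c k (a + 1) n m) ≤
      1 / 2 * (pot t (μ • CP c k a (2 * n) m) + pot t' (μ • CP c k a (2 * n + 1) m)) := by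
  rw [CP_out (a + 1) k c a h (Nat.lt_succ_self a) n m, smul_comm, smul_add]
  exact pot_convex ht ht' ((CP_psd ..).smul hμ) ((CP_psd ..).smul hμ)

theorem pot_hub (c : ℤ → ℤ → κ → ℝ) (k a : ℕ) (n m : ℤ) {t t' μ : ℝ} (ht : 0 < t)
    (ht' : 0 < t') (hμ : 0 ≤ μ) :
    pot (1 / 2 * (t + t')) (μ • CP c (k + 1) a n m) ≤
      1 / 2 * (pot t (μ • CP c k a n (2 * m)) + pot t' (μ • CP c k a n (2 * m + 1))) := by
  rw [pot_sw c (k + 1) a n m (by positivity) hμ, pot_sw c k a n (2 * m) ht hμ,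
    pot_sw c k a n (2 * m + 1) ht' hμ, CO_hub, smul_comm, smul_add]
  exact pot_convex ht ht' ((CO_psd ..).smul hμ) ((CO_psd ..).smul hμ)

theorem potV_child (k : ℕ) (c : ℤ → ℤ → κ → ℝ) (p : ℤ × ℤ) {μ : ℝ} (hμ : 0 ≤ μ)
    {m : ℤ × ℤ → ℝ} (hm : ∀ q, 1 ≤ m q) :
    pot (1 / 4 * ∑ q ∈ chd p, m q) (μ • CP c (k + 1) (k + 1) p.1 p.2) ≤
      1 / 4 * ∑ q ∈ chd p, pot (m q) (μ • CP c k k q.1 q.2) := by
  have hm0 : ∀ q, 0 < m q := fun q => by linarith [hm q]
  have s1 := sum_chd p (fun x y => m (x, y))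
  have s2 := sum_chd p (fun x y => pot (m (x, y)) (μ • CP c k k x y))
  simp only [Prod.mk.eta] at s1 s2
  rw [s1, s2]
  set m00 := m (2 * p.1, 2 * p.2)
  set m01 := m (2 * p.1, 2 * p.2 + 1)
  set m10 := m (2 * p.1 + 1, 2 * p.2)
  set m11 := m (2 * p.1 + 1, 2 * p.2 + 1)
  have h00 : 0 < m00 := hm0 _
  have h01 : 0 < m01 := hm0 _
  have h10 : 0 < m10 := hm0 _
  have h11 : 0 < m11 := hm0 _
  have r := pot_hub c k (k + 1) p.1 p.2 (t := 1 / 2 * (m00 + m10)) (t' := 1 / 2 * (m01 + m11))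
    (by positivity) (by positivity) hμ
  have c0 := pot_out c (le_refl k) p.1 (2 * p.2) h00 h10 hμ
  have c1 := pot_out c (le_refl k) p.1 (2 * p.2 + 1) h01 h11 hμ
  have e : 1 / 4 * (m00 + m01 + (m10 + m11)) =
      1 / 2 * (1 / 2 * (m00 + m10) + 1 / 2 * (m01 + m11)) := by ring
  rw [e]
  linarith

/-! ### Carleson embedding -/

variable {N : ℕ} {R S T : ℤ} {Q Q' : ℕ → ℤ → ℤ → Prop} {F : ℕ → ℤ → ℤ → κ → ℝ}

/-- **Carleson embedding for the saturated Gram matrices, with labels.** -/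
theorem carlV {μ : ℝ} (hμ : 0 ≤ μ)
    (hF : ∀ k, k < N → ∀ n ∈ iv (N - k) R, ∀ m ∈ iv (N - k) S, ¬ Q k n m →
      CP (F (k + 1)) k k n m = CP (F k) k k n m) (hF0 : ∀ x y, F 0 x y = 0) {Z : Type*}
    {s : Finset Z} {sc : Z → ℕ} {P : Z → ℤ × ℤ} {w : Z → ℝ} {C : ℝ} (hC : 0 < C)
    (w0 : ∀ i ∈ s, 0 ≤ w i) (hP : Pack s sc P w 0 N C)
    (hs : ∀ i ∈ s, sc i + 1 ≤ N ∧ (P i).1 ∈ iv (N - sc i) R ∧ (P i).2 ∈ iv (N - sc i) S) :
    ∑ i ∈ s, w i * (phi (μ • CP (F (sc i + 1)) (sc i) (sc i) (P i).1 (P i).2) *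
      phi (μ • CP (F (sc i + 1)) (sc i) (sc i) (P i).1 (P i).2)).trace ≤
      4 * C * (μ * pwV N R S Q F) := by
  have hpw : μ * pwV N R S Q F = ∑ j ∈ Aff N R S Q, (4 : ℝ) ^ j.1 *
      (μ • CP (F (j.1 + 1)) j.1 j.1 j.2.1 j.2.2).trace := by
    rw [sum_Aff, pwV, mul_sum]
    refine sum_congr rfl fun k _ => ?_
    rw [yS, mul_sum]
    refine sum_congr rfl fun m _ => ?_
    rw [mul_sum]
    refine sum_congr rfl fun n _ => ?_
    split_ifs
    · rw [trace_smul, smul_eq_mul, ← tr_CP4]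
      ring
    · rw [mul_zero]
  rcases Nat.eq_zero_or_pos N with hN | hN
  · have e : s = ∅ := by
      rw [eq_empty_iff_forall_notMem]
      intro i hi
      have := (hs i hi).1
      omega
    rw [e, sum_empty]
    exact mul_nonneg (by positivity) (mul_nonneg hμ (sum_nonneg fun k _ =>
      yS_nonneg zero_le_one))
  rw [hpw]
  refine carl_top (V := fun k p m => pot m (μ • CP (F (k + 1)) k k p.1 p.2))
    (V' := fun k p m => pot m (μ • CP (F k) k k p.1 p.2))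
    (a := fun k p => (phi (μ • CP (F (k + 1)) k k p.1 p.2) *
      phi (μ • CP (F (k + 1)) k k p.1 p.2)).trace)
    (K₀ := N - 1) (κ' := fun j => j.1) (P' := fun j => j.2)
    (ok := fun k p => p.1 ∈ iv (N - k) R ∧ p.2 ∈ iv (N - k) S)
    (top := iv (N - (N - 1)) R ×ˢ iv (N - (N - 1)) S)
    hC w0 hP (by omega) (fun p _ m hm _ => pot_nonneg (by linarith) ((CP_psd ..).smul hμ))
    (fun k hk p _ m u hm hu hmu => pot_drop hm hu hmu ((CP_psd ..).smul hμ))
    (fun k hk p hp m hm _ => ?_) (fun p _ m _ _ => ?_) (fun k hk p hp m hm _ => ?_)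
    (fun k hk p hp q hq => ?_) (fun j _ => ?_) (fun p hp => ?_) (fun i hi => ?_)
  · have hA := ar_pos 0 k
    have hm0 : 0 < m := by linarith
    have hlay := lay_Aff (Q := Q) (r := 0) (show k + 0 ≤ N by omega) (show k < N by omega)
      (fun j => (4 : ℝ) ^ j.1 * (μ • CP (F (j.1 + 1)) j.1 j.1 j.2.1 j.2.2).trace)
      (by simpa using hp.1) hp.2
    have e1 : (Aff N R S Q).filter (fun j => j.1 + 0 ≤ N) = Aff N R S Q := by
      refine filter_true_of_mem fun j hj => ?_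
      have := (mem_Aff.1 hj).1
      omega
    rw [e1, H958.iv_nil, sum_singleton] at hlay
    simp only [H958.ix_zero] at hlay
    rw [hlay]
    by_cases hq : Q k p.1 p.2
    · rw [if_pos hq]
      have h1 := pot_le_trace hm0 ((CP_psd (F (k + 1)) k k p.1 p.2).smul hμ)
      have h2 := pot_nonneg hm0 ((CP_psd (F k) k k p.1 p.2).smul hμ)
      have e2 : ar 0 k = 4 ^ k := by
        unfold ar
        rw [Nat.add_zero, four_eq]
      rw [e2]
      have h4 : (0 : ℝ) < 4 ^ k := by positivity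
      nlinarith [mul_le_mul_of_nonneg_left h1 h4.le, mul_nonneg h4.le h2]
    · rw [if_neg hq, hF k (by omega) p.1 hp.1 p.2 hp.2 hq, add_zero]
  · have h1 : pot m (0 : Matrix (Ix 0 × κ) (Ix 0 × κ) ℝ) = 0 := by
      have h0 : phi (0 : Matrix (Ix 0 × κ) (Ix 0 × κ) ℝ) = 0 := by simp [phi, res]
      unfold pot
      rw [smul_zero, Matrix.trace_zero, h0, Matrix.trace_zero, mul_zero, sub_zero]
    simp only [CP_zero hF0, smul_zero]
    exact h1.le
  · exact potV_child k (F (k + 1)) p hμ hm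
  · obtain ⟨h1, h2⟩ := hp
    unfold chd at hq
    rw [mem_product] at hq
    exact ⟨H736.iv_sub (N := N) (k := k) (r := 1) (by omega) h1 hq.1,
      H736.iv_sub (N := N) (k := k) (r := 1) (by omega) h2 hq.2⟩
  · exact mul_nonneg (by positivity) ((CP_psd ..).smul hμ).trace_nonneg
  · rw [mem_product] at hp
    exact hp
  · obtain ⟨h1, h2, h3⟩ := hs i hi
    refine ⟨by omega, ?_⟩
    unfold anc
    rw [mem_product, mem_iv, mem_iv]
    rw [mem_iv] at h2 h3
    rw [PL.ix_ix, PL.ix_ix, ← h2, ← h3]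
    constructor
    · congr 1
      omega
    · congr 1
      omega

/-- **The squares of the first family reflected into the second.** -/
theorem rS_sum {co : ℕ → ℤ} (hc : H588.Pl co) {cP s : ℝ} (hP : 0 < cP) (hs : s ≠ 0)
    (hpk : PackQ N R S Q cP) (F0 : ∀ x y, F 0 x y = 0)
    (agF : ∀ k, k < N → ∀ n ∈ iv (N - k) T, ∀ m ∈ iv (N - k) S, ¬ Q' k n m →
      ∀ x ∈ iv k m, ∀ y ∈ iv k n, F (k + 1) x y = F k x y) :
    ∑ k ∈ range N, rS N R S T k (co k) s (Q k) (F (k + 1)) ≤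
      20 * cP * s ^ 2 * ∑ k ∈ range N, yS N S T k 1 (Q' k) (F (k + 1)) := by
  have h := carlV (N := N) (R := T) (S := S) (Q := Q') (F := F) (μ := (s ^ 2)⁻¹) (by positivity)
    (fun k hk n hn m hm hq => CP_congr (agF k hk n hn m hm hq)) F0
    (s := rfs N R S T co Q) (sc := fun i => i.1)
    (P := fun i => (co i.1 - i.2.2 - i.2.1, i.2.2)) (w := fun i => (4 : ℝ) ^ i.1)
    (C := 5 * cP) (by positivity) (fun _ _ => by positivity) (pack_refl hc hpk)
    (fun i hi => by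
      unfold rfs at hi
      rw [mem_filter, mem_Aff] at hi
      obtain ⟨⟨h1, h2, h3, _⟩, h4⟩ := hi
      exact ⟨by omega, h4, h3⟩)
  have e : ∑ k ∈ range N, rS N R S T k (co k) s (Q k) (F (k + 1)) =
      s ^ 4 * ∑ i ∈ rfs N R S T co Q, (4 : ℝ) ^ i.1 *
        (phi ((s ^ 2)⁻¹ • CP (F (i.1 + 1)) i.1 i.1 (co i.1 - i.2.2 - i.2.1) i.2.2) *
          phi ((s ^ 2)⁻¹ • CP (F (i.1 + 1)) i.1 i.1 (co i.1 - i.2.2 - i.2.1) i.2.2)).trace := by
    unfold rfs
    rw [sum_filter, sum_Aff, mul_sum]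
    refine sum_congr rfl fun k _ => ?_
    rw [rS, mul_sum]
    refine sum_congr rfl fun m _ => ?_
    rw [mul_sum]
    refine sum_congr rfl fun n _ => ?_
    dsimp only
    split_ifs
    · unfold S2 QP XP
      rw [smul_mul_smul_comm, trace_smul, smul_eq_mul]
      ring
    · rw [mul_zero]
    · rw [mul_zero]
  rw [e]
  have h4 : (0 : ℝ) ≤ s ^ 4 := by positivity
  have h5 := mul_le_mul_of_nonneg_left h h4
  refine h5.trans (le_of_eq ?_)
  rw [pwV]
  field_simp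
  ring

end

end Vale.Agent.P141.H588G
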