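import Vale.Agent.P141.H588G.CarlL
import Vale.Agent.P141.H999.LightX
import Vale.Agent.P141.H205.HPart

/-!
# The light pair: the reflected squares summed over the sections

`rS_X`: the hypothesis `RF` of `H999.light_x0`; `light_x1`: `light_x0` without it; `yS_pwrK`: the
masses of the killed squares in the letters of `H205.pwrK`.
-/

namespace Vale.Agent.P141.H588G

open Finset Matrix Vale.Agent.P141.PL Vale.Agent.P141.PL.H103 Vale.Agent.P141.H103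
open Vale.Agent.P075 (Ix)
open Vale.Agent.P141.H874
open Vale.Agent.P141.H46 (ms yS rS)
open Vale.Agent.P141.H958 (Aff sum_Aff PackQ)

noncomputable section

open scoped Classical

variable {κ : Type*} [Fintype κ] [DecidableEq κ] {N : ℕ} {R S T : ℤ}

/-- **The reflected squares, summed over the sections.** -/
theorem rS_X {X : Finset ℤ} {co : ℤ → ℕ → ℤ} (hc : ∀ i ∈ X, H588.Pl (co i)) {cP s DC : ℝ}
    (hP : 0 < cP) (hs : s ≠ 0) {q q' : ℤ → ℕ → ℤ → ℤ → Prop}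
    (hpk : ∀ i ∈ X, PackQ N R S (q i) cP) {c : ℤ → ℕ → ℤ → ℤ → κ → ℝ}
    (c0 : ∀ i ∈ X, ∀ x y, c i 0 x y = 0)
    (agc : ∀ i ∈ X, ∀ k, k < N → ∀ n ∈ iv (N - k) T, ∀ m ∈ iv (N - k) S, ¬ q' i k n m →
      ∀ x ∈ iv k m, ∀ y ∈ iv k n, c i (k + 1) x y = c i k x y)
    (pC : ∑ i ∈ X, ∑ k ∈ range N, yS N S T k 1 (q' i k) (c i (k + 1)) ≤ DC) :
    ∑ i ∈ X, ∑ k ∈ range N, rS N R S T k (co i k) s (q i k) (c i (k + 1)) ≤
      s ^ 2 * (20 * cP * DC) := by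
  have h := sum_le_sum fun i (hi : i ∈ X) => rS_sum (N := N) (R := R) (S := S) (T := T)
    (hc i hi) hP hs (hpk i hi) (c0 i hi) (agc i hi)
  rw [← mul_sum] at h
  refine h.trans ?_
  have h2 := mul_le_mul_of_nonneg_left pC (show 0 ≤ 20 * cP * s ^ 2 by positivity)
  refine h2.trans (le_of_eq ?_)
  ring

/-- **The light pair summed over the sections, the reflected squares included.** -/
theorem light_x1 {l : ℝ} {G K : ℤ → ℕ → ℤ → Matrix κ κ ℝ} {X : Finset ℤ}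
    (h : ∀ x, H420.Tr l N (G x) (K x))
    {co : ℤ → ℕ → ℤ} (hc : ∀ i ∈ X, H588.Pl (co i)) {s Kop : ℝ} (hs : 0 < s) (hK0 : 0 < Kop)
    {b c : ℤ → ℕ → ℤ → ℤ → κ → ℝ} (b0 : ∀ i ∈ X, ∀ x y, b i 0 x y = 0)
    (c0 : ∀ i ∈ X, ∀ x y, c i 0 x y = 0)
    (cap1 : ∀ i ∈ X, ∀ k, k < N → ∀ n m,
      (Kop • (1 : Matrix (Ix (k + 1) × κ) (Ix (k + 1) × κ) ℝ)
        - LP l K (b i (k + 1)) (k + 1) (k + 1) n m).PosSemidef)
    (cap : ∀ i ∈ X, ∀ k, k < N → ∀ a, k ≤ a → a ≤ N → ∀ n m,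
      (Kop • (1 : Matrix (Ix k × κ) (Ix k × κ) ℝ) - LP l K (b i (k + 1)) k a n m).PosSemidef)
    {q q' : ℤ → ℕ → ℤ → ℤ → Prop}
    (agb : ∀ i ∈ X, ∀ k, k < N → ∀ n ∈ iv (N - k) R, ∀ m ∈ iv (N - k) S, ¬ q i k n m →
      ∀ x ∈ iv k m, ∀ y ∈ iv k n, b i (k + 1) x y = b i k x y)
    (agc : ∀ i ∈ X, ∀ k, k < N → ∀ n ∈ iv (N - k) T, ∀ m ∈ iv (N - k) S, ¬ q' i k n m →
      ∀ x ∈ iv k m, ∀ y ∈ iv k n, c i (k + 1) x y = c i k x y)
    {cP DB DC Dx : ℝ} (hP : 0 < cP) (hpk : ∀ i ∈ X, PackQ N R S (q i) cP)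
    (pB : ∑ i ∈ X, ∑ k ∈ range N, yS N S R k 1 (q i k) (b i (k + 1)) ≤ DB)
    (pC : ∑ i ∈ X, ∑ k ∈ range N, yS N S T k 1 (q' i k) (c i (k + 1)) ≤ DC)
    (hDx : ∑ i ∈ X, ∑ k ∈ range N, GW N R S T (k + 1) (co i (k + 1))
      (dcc l K (c i (k + 1)) k) ≤ Dx) :
    ∑ i ∈ X, ∑ k ∈ range N, GW N R S T (k + 1) (co i (k + 1))
        (gn l K s (b i (k + 1)) (c i (k + 1)) (k + 1))
      ≤ s * √Kop * (148 * DB + 288 * DC + 3 * Dx + 20 * cP * DC) + 6 * Kop * DC :=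
  H999.light_x0 h hc hs hK0 b0 c0 cap1 cap agb agc pB pC
    (rS_X hc hP hs.ne' hpk c0 agc pC) hDx

omit [DecidableEq κ] in
/-- masses in the letters of `H205.pwrK`, the hub variable second -/
theorem yS_pwrK (R S : ℤ) (Q : ℕ → ℤ → ℤ → Prop) (F : ℕ → ℤ → ℤ → κ → ℝ) :
    ∑ k ∈ range N, yS N S R k 1 (Q k) (fun x y => F (k + 1) y x) = H205.pwrK N R S Q F := by
  unfold H205.pwrK
  rw [sum_Aff]
  refine sum_congr rfl fun k _ => ?_
  unfold yS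
  refine sum_congr rfl fun m _ => sum_congr rfl fun n _ => ?_
  dsimp only
  split_ifs
  · rw [one_mul]
    unfold ms
    rw [sum_comm]
  · rfl

omit [DecidableEq κ] in
/-- the same, the hub variable first -/
theorem yS_pwrK' (R S : ℤ) (Q : ℕ → ℤ → ℤ → Prop) (F : ℕ → ℤ → ℤ → κ → ℝ) :
    ∑ k ∈ range N, yS N S R k 1 (fun n m => Q k m n) (F (k + 1)) = H205.pwrK N S R Q F := by
  unfold H205.pwrK
  rw [sum_Aff]
  refine sum_congr rfl fun k _ => ?_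
  unfold yS
  rw [sum_comm]
  refine sum_congr rfl fun m _ => sum_congr rfl fun n _ => ?_
  dsimp only
  split_ifs
  · rw [one_mul]
    rfl
  · rfl

end

end Vale.Agent.P141.H588G
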