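import Vale.Agent.P141.H588G.ChgW

/-!
# The change of the plane functional of the light pair

On the squares where the first family changes the product is split with a weight `τ`; on the squares
where only the second family changes the node cap `K` of the first family is used.
-/

namespace Vale.Agent.P141.H588G

open Finset Matrix Vale.Agent.P141.PL Vale.Agent.P141.PL.H103 Vale.Agent.P141.H103

noncomputable section

open scoped Classical

variable {ι : Type*} [Fintype ι] [DecidableEq ι]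

/-- weighted product bound -/
theorem trace_mul_le_wt {τ : ℝ} (hτ : 0 < τ) {X Y : Matrix ι ι ℝ} (hX : Xᵀ = X) (hY : Yᵀ = Y) :
    (X * Y).trace ≤ τ / 2 * S2 X + (2 * τ)⁻¹ * S2 Y := by
  have h := P075.trace_sq_nonneg (B := τ • X - Y)
    (by rw [transpose_sub, transpose_smul, hX, hY])
  have c := trace_mul_comm Y X
  simp only [Matrix.sub_mul, Matrix.mul_sub, Matrix.smul_mul, Matrix.mul_smul, trace_sub,
    trace_smul, smul_eq_mul] at h
  rw [c] at h
  unfold S2
  have e : (2 * τ)⁻¹ * (2 * τ) = 1 := inv_mul_cancel₀ (by positivity)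
  have h2 : 0 ≤ (2 * τ)⁻¹ * (τ * (τ * (X * X).trace) - τ * (X * Y).trace - (τ * (X * Y).trace
      - (Y * Y).trace)) := mul_nonneg (by positivity) (by linarith)
  have h3 : (2 * τ)⁻¹ * (τ * (τ * (X * X).trace) - τ * (X * Y).trace - (τ * (X * Y).trace
      - (Y * Y).trace)) = τ / 2 * (X * X).trace - (X * Y).trace + (2 * τ)⁻¹ * (Y * Y).trace := by
    field_simp
    ring
  linarith

/-- product of a capped matrix with a PSD matrix -/
theorem trace_mul_le_cap {K : ℝ} {X Y : Matrix ι ι ℝ}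
    (hX : (K • (1 : Matrix ι ι ℝ) - X).PosSemidef) (hY : Y.PosSemidef) :
    (X * Y).trace ≤ K * Y.trace := by
  have h := P075.trace_mul_nonneg hX hY
  rw [Matrix.sub_mul, Matrix.smul_mul, Matrix.one_mul, trace_sub, trace_smul, smul_eq_mul] at h
  linarith

/-- `tr X² ≤ K tr X` -/
theorem S2_le_cap {K : ℝ} {X : Matrix ι ι ℝ} (hX : X.PosSemidef)
    (hK : (K • (1 : Matrix ι ι ℝ) - X).PosSemidef) : S2 X ≤ K * X.trace :=
  trace_mul_le_cap hK hX

/-- **The change of the plane functional**, weighted form with a cap. -/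
theorem MW_chL {N k : ℕ} {R S T c : ℤ} {p p' u u' : ℤ → ℤ → Matrix ι ι ℝ} {τ K : ℝ} (hτ : 0 < τ)
    (hK : 0 ≤ K)
    (pP : ∀ n m, (p n m).PosSemidef) (pP' : ∀ n m, (p' n m).PosSemidef)
    (pQ : ∀ n m, (u n m).PosSemidef) (pQ' : ∀ n m, (u' n m).PosSemidef)
    {q q' : ℤ → ℤ → Prop}
    (cap : ∀ n ∈ iv (N - k) R, ∀ m ∈ iv (N - k) S,
      (K • (1 : Matrix ι ι ℝ) - p' n m).PosSemidef)
    (ag : ∀ n ∈ iv (N - k) R, ∀ m ∈ iv (N - k) S, ¬ q n m → p' n m = p n m)
    (ag' : ∀ n ∈ iv (N - k) T, ∀ m ∈ iv (N - k) S, ¬ q' n m → u' n m = u n m) :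
    MW N R S T k c p' u' ≤ MW N R S T k c p u
      + 4 ^ k * (∑ m ∈ iv (N - k) S, ∑ n ∈ iv (N - k) R, (if q n m then
          τ / 2 * S2 (p' n m)
            + (if c - m - n ∈ iv (N - k) T then (2 * τ)⁻¹ * S2 (u' (c - m - n) m) else 0)
          else 0))
      + 4 ^ k * (∑ m ∈ iv (N - k) S, ∑ n ∈ iv (N - k) T, (if q' n m then
          K * (u' n m).trace else 0)) := by
  unfold MW
  rw [← mul_add, ← mul_add]
  refine mul_le_mul_of_nonneg_left ?_ (by positivity)
  rw [← sum_add_distrib, ← sum_add_distrib]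
  refine sum_le_sum fun m hm => ?_
  set g : ℤ → ℝ := fun n => (if q' n m then K * (u' n m).trace else 0) with hg
  have g0 : ∀ n, 0 ≤ g n := by
    intro n
    simp only [hg]
    split_ifs
    · exact mul_nonneg hK (pQ' n m).trace_nonneg
    · exact le_rfl
  have h := H588.sum_refl_le (N - k) R T (c - m) g g0
  refine le_trans ?_ (add_le_add_right h _)
  rw [← sum_add_distrib, ← sum_add_distrib]
  refine sum_le_sum fun n hn => ?_
  have s1 := mul_nonneg (by positivity : (0 : ℝ) ≤ τ / 2) (S2_nonneg (psd_tr (pP' n m)))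
  by_cases hc : c - m - n ∈ iv (N - k) T
  · simp only [if_pos hc]
    have s2 := mul_nonneg (by positivity : (0 : ℝ) ≤ (2 * τ)⁻¹)
      (S2_nonneg (psd_tr (pQ' (c - m - n) m)))
    have h2 := trace_mul_le_wt hτ (psd_tr (pP' n m)) (psd_tr (pQ' (c - m - n) m))
    have h3 := P075.trace_mul_nonneg (pP n m) (pQ (c - m - n) m)
    have h4 := g0 (c - m - n)
    by_cases h1 : q n m
    · rw [if_pos h1]
      linarith
    · rw [if_neg h1]
      by_cases h1' : q' (c - m - n) m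
      · have h5 := trace_mul_le_cap (cap n hn m hm) (pQ' (c - m - n) m)
        simp only [hg]
        rw [if_pos h1']
        linarith
      · rw [ag n hn m hm h1, ag' _ hc m hm h1']
        linarith
  · rw [if_neg hc, if_neg hc, if_neg hc, if_neg hc]
    split_ifs
    · linarith
    · simp

/-- the change terms of the light pair at one scale -/
def xL (N : ℕ) (R S T : ℤ) (k : ℕ) (c : ℤ) (q q' : ℤ → ℤ → Prop) (τ K : ℝ)
    (p' u' : ℤ → ℤ → Matrix ι ι ℝ) : ℝ :=
  4 ^ k * (∑ m ∈ iv (N - k) S, ∑ n ∈ iv (N - k) R, (if q n m then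
      τ / 2 * S2 (p' n m)
        + (if c - m - n ∈ iv (N - k) T then (2 * τ)⁻¹ * S2 (u' (c - m - n) m) else 0) else 0))
    + 4 ^ k * (∑ m ∈ iv (N - k) S, ∑ n ∈ iv (N - k) T, (if q' n m then
      K * (u' n m).trace else 0))

/-- the energy of the affected squares of one scale -/
def trQ (N : ℕ) (R S : ℤ) (k : ℕ) (q : ℤ → ℤ → Prop) (p' : ℤ → ℤ → Matrix ι ι ℝ) : ℝ :=
  4 ^ k * ∑ m ∈ iv (N - k) S, ∑ n ∈ iv (N - k) R, (if q n m then (p' n m).trace else 0)

/-- the energy of the second family on the reflected affected squares of the first one -/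
def rfQ (N : ℕ) (R S T : ℤ) (k : ℕ) (c : ℤ) (q : ℤ → ℤ → Prop) (u' : ℤ → ℤ → Matrix ι ι ℝ) : ℝ :=
  4 ^ k * ∑ m ∈ iv (N - k) S, ∑ n ∈ iv (N - k) R, (if q n m then
    (if c - m - n ∈ iv (N - k) T then S2 (u' (c - m - n) m) else 0) else 0)

/-- the three parts of the change terms -/
theorem xL_le {N k : ℕ} {R S T c : ℤ} {q q' : ℤ → ℤ → Prop} {τ K : ℝ} (hτ : 0 < τ)
    {p' u' : ℤ → ℤ → Matrix ι ι ℝ} (pP' : ∀ n m, (p' n m).PosSemidef)
    (cap : ∀ n ∈ iv (N - k) R, ∀ m ∈ iv (N - k) S,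
      (K • (1 : Matrix ι ι ℝ) - p' n m).PosSemidef) :
    xL N R S T k c q q' τ K p' u' ≤ τ / 2 * K * trQ N R S k q p'
      + (2 * τ)⁻¹ * rfQ N R S T k c q u' + K * trQ N T S k q' u' := by
  unfold xL trQ rfQ
  have e3 : K * (4 ^ k * ∑ m ∈ iv (N - k) S, ∑ n ∈ iv (N - k) T,
      (if q' n m then (u' n m).trace else 0))
      = 4 ^ k * (∑ m ∈ iv (N - k) S, ∑ n ∈ iv (N - k) T, (if q' n m then
      K * (u' n m).trace else 0)) := by
    rw [mul_left_comm, Finset.mul_sum]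
    congr 1
    refine sum_congr rfl fun m _ => ?_
    rw [Finset.mul_sum]
    refine sum_congr rfl fun n _ => ?_
    split_ifs <;> simp
  rw [e3]
  refine add_le_add ?_ le_rfl
  have e1 : τ / 2 * K * (4 ^ k * ∑ m ∈ iv (N - k) S, ∑ n ∈ iv (N - k) R,
      (if q n m then (p' n m).trace else 0)) + (2 * τ)⁻¹ * (4 ^ k * ∑ m ∈ iv (N - k) S,
      ∑ n ∈ iv (N - k) R, (if q n m then
      (if c - m - n ∈ iv (N - k) T then S2 (u' (c - m - n) m) else 0) else 0))
      = 4 ^ k * ∑ m ∈ iv (N - k) S, ∑ n ∈ iv (N - k) R, (if q n m then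
        τ / 2 * (K * (p' n m).trace)
        + (if c - m - n ∈ iv (N - k) T then (2 * τ)⁻¹ * S2 (u' (c - m - n) m) else 0)
        else 0) := by
    rw [mul_left_comm, mul_left_comm (2 * τ)⁻¹, ← mul_add, Finset.mul_sum, Finset.mul_sum,
      ← sum_add_distrib]
    congr 1
    refine sum_congr rfl fun m _ => ?_
    rw [Finset.mul_sum, Finset.mul_sum, ← sum_add_distrib]
    refine sum_congr rfl fun n _ => ?_
    split_ifs <;> ring
  rw [e1]
  refine mul_le_mul_of_nonneg_left (sum_le_sum fun m hm => sum_le_sum fun n hn => ?_)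
    (by positivity)
  split_ifs
  · have := mul_le_mul_of_nonneg_left (S2_le_cap (pP' n m) (cap n hn m hm))
      (by positivity : 0 ≤ τ / 2)
    linarith
  · have := mul_le_mul_of_nonneg_left (S2_le_cap (pP' n m) (cap n hn m hm))
      (by positivity : 0 ≤ τ / 2)
    linarith
  · exact le_rfl

/-- **The changes of all scales**: with the energies `DP`, `DQ` of the killed parts and the energy
`EQ` of the second family on the reflected squares. -/
theorem sum_xL {N : ℕ} {R S T : ℤ} {c : ℕ → ℤ} {ι : ℕ → Type*} [∀ k, Fintype (ι k)]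
    [∀ k, DecidableEq (ι k)] {q q' : ℕ → ℤ → ℤ → Prop} {τ K DP DQ EQ : ℝ} (hτ : 0 < τ) (hK : 0 ≤ K)
    {p' u' : ∀ k, ℤ → ℤ → Matrix (ι k) (ι k) ℝ} (pP' : ∀ k n m, (p' k n m).PosSemidef)
    (cap : ∀ k < N, ∀ n ∈ iv (N - k) R, ∀ m ∈ iv (N - k) S,
      (K • (1 : Matrix (ι k) (ι k) ℝ) - p' k n m).PosSemidef)
    (hP : ∑ k ∈ range N, trQ N R S k (q k) (p' k) ≤ DP)
    (hQ : ∑ k ∈ range N, trQ N T S k (q' k) (u' k) ≤ DQ)
    (hR : ∑ k ∈ range N, rfQ N R S T k (c k) (q k) (u' k) ≤ EQ) :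
    ∑ k ∈ range N, xL N R S T k (c k) (q k) (q' k) τ K (p' k) (u' k)
      ≤ τ / 2 * K * DP + (2 * τ)⁻¹ * EQ + K * DQ := by
  have h1 : ∑ k ∈ range N, xL N R S T k (c k) (q k) (q' k) τ K (p' k) (u' k)
      ≤ ∑ k ∈ range N, (τ / 2 * K * trQ N R S k (q k) (p' k)
      + (2 * τ)⁻¹ * rfQ N R S T k (c k) (q k) (u' k) + K * trQ N T S k (q' k) (u' k)) :=
    sum_le_sum fun k hk => xL_le hτ (pP' k) (cap k (mem_range.1 hk))
  refine h1.trans ?_
  rw [sum_add_distrib, sum_add_distrib, ← Finset.mul_sum, ← Finset.mul_sum, ← Finset.mul_sum]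
  have a1 := mul_le_mul_of_nonneg_left hP (by positivity : 0 ≤ τ / 2 * K)
  have a2 := mul_le_mul_of_nonneg_left hR (by positivity : 0 ≤ (2 * τ)⁻¹)
  have a3 := mul_le_mul_of_nonneg_left hQ hK
  linarith

end

end Vale.Agent.P141.H588G
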