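import Vale.Agent.P075.R.Pt

/-!
# P141: the two steps of the mixed energy with a multiplier between the two saturated Grams

`ysplitU`: middle step, `xsplitU`: outer step with change of the multiplier.
-/

namespace Vale.Agent.P141.H588G.YU

open Matrix Vale.Agent.P075

set_option linter.unusedSectionVars false
variable {n m : Type*} [Fintype n] [DecidableEq n] [Fintype m] [DecidableEq m]

/-- `|U| ≤ κ` as an operator -/
structure Op (κ : ℝ) (U : Matrix n m ℝ) : Prop where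
  l : (κ ^ 2 • (1 : Matrix m m ℝ) - Uᵀ * U).PosSemidef
  r : (κ ^ 2 • (1 : Matrix n n ℝ) - U * Uᵀ).PosSemidef

theorem Op.tr {κ : ℝ} {U : Matrix n m ℝ} (h : Op κ U) : Op κ Uᵀ :=
  ⟨by rw [transpose_transpose]; exact h.r, by rw [transpose_transpose]; exact h.l⟩

/-- the sum of squares of the mean and of the half difference -/
theorem mean_sq (U₀ U₁ : Matrix n m ℝ) :
    ((1 / 2 : ℝ) • (U₀ + U₁))ᵀ * ((1 / 2 : ℝ) • (U₀ + U₁))
      + ((1 / 2 : ℝ) • (U₀ - U₁))ᵀ * ((1 / 2 : ℝ) • (U₀ - U₁))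
      = (1 / 2 : ℝ) • (U₀ᵀ * U₀ + U₁ᵀ * U₁) := by
  simp only [transpose_smul, transpose_add, transpose_sub, Matrix.smul_mul, Matrix.mul_smul,
    Matrix.add_mul, Matrix.mul_add, Matrix.sub_mul, Matrix.mul_sub, smul_add, smul_sub, smul_smul]
  module

theorem op_mean_l {κ : ℝ} {U₀ U₁ : Matrix n m ℝ}
    (h0 : (κ ^ 2 • (1 : Matrix m m ℝ) - U₀ᵀ * U₀).PosSemidef)
    (h1 : (κ ^ 2 • (1 : Matrix m m ℝ) - U₁ᵀ * U₁).PosSemidef) :
    (κ ^ 2 • (1 : Matrix m m ℝ)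
      - ((1 / 2 : ℝ) • (U₀ + U₁))ᵀ * ((1 / 2 : ℝ) • (U₀ + U₁))).PosSemidef ∧
    (κ ^ 2 • (1 : Matrix m m ℝ)
      - ((1 / 2 : ℝ) • (U₀ - U₁))ᵀ * ((1 / 2 : ℝ) • (U₀ - U₁))).PosSemidef := by
  have hs := mean_sq U₀ U₁
  have hm : ((1 / 2 : ℝ) • ((κ ^ 2 • (1 : Matrix m m ℝ) - U₀ᵀ * U₀)
      + (κ ^ 2 • (1 : Matrix m m ℝ) - U₁ᵀ * U₁))).PosSemidef := (h0.add h1).smul (by norm_num)
  have e : (1 / 2 : ℝ) • ((κ ^ 2 • (1 : Matrix m m ℝ) - U₀ᵀ * U₀)
      + (κ ^ 2 • (1 : Matrix m m ℝ) - U₁ᵀ * U₁))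
      = κ ^ 2 • (1 : Matrix m m ℝ) - (1 / 2 : ℝ) • (U₀ᵀ * U₀ + U₁ᵀ * U₁) := by module
  rw [e, ← hs] at hm
  constructor
  · have := hm.add (psd_transpose_mul ((1 / 2 : ℝ) • (U₀ - U₁)))
    convert this using 1
    abel
  · have := hm.add (psd_transpose_mul ((1 / 2 : ℝ) • (U₀ + U₁)))
    convert this using 1
    abel

theorem Op.mean {κ : ℝ} {U₀ U₁ : Matrix n m ℝ} (h0 : Op κ U₀) (h1 : Op κ U₁) :
    Op κ ((1 / 2 : ℝ) • (U₀ + U₁)) ∧ Op κ ((1 / 2 : ℝ) • (U₀ - U₁)) := by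
  obtain ⟨a, b⟩ := op_mean_l h0.l h1.l
  obtain ⟨c, d⟩ := op_mean_l h0.tr.l h1.tr.l
  refine ⟨⟨a, ?_⟩, ⟨b, ?_⟩⟩
  · convert c using 2
    simp only [transpose_smul, transpose_add, transpose_transpose]
  · convert d using 2
    simp only [transpose_smul, transpose_sub, transpose_transpose]

/-- the partner `κ⁻² U b Uᵀ` -/
theorem par_psd {b : Matrix m m ℝ} (hb : b.PosSemidef) (U : Matrix n m ℝ) :
    (U * b * Uᵀ).PosSemidef := psd_conj hb U

theorem par_sq {κ : ℝ} (hκ : 0 < κ) {b : Matrix m m ℝ} (hb : b.PosSemidef)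
    (hb1 : (b - b * b).PosSemidef) {U : Matrix n m ℝ} (hU : Op κ U) :
    ((κ ^ 2)⁻¹ • (U * b * Uᵀ)
      - ((κ ^ 2)⁻¹ • (U * b * Uᵀ)) * ((κ ^ 2)⁻¹ • (U * b * Uᵀ))).PosSemidef := by
  have h1 := (psd_conj hb1 U).smul (a := (κ ^ 2)⁻¹) (by positivity)
  have h2 := (psd_conj (psd_conj_symm hU.l (psd_isSymm hb)) U).smul
    (a := (κ ^ 2)⁻¹ * (κ ^ 2)⁻¹) (by positivity)
  convert h1.add h2 using 1
  have e1 : U * (b - b * b) * Uᵀ = U * b * Uᵀ - U * (b * b) * Uᵀ := by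
    rw [Matrix.mul_sub, Matrix.sub_mul]
  have e2 : U * (b * (κ ^ 2 • (1 : Matrix m m ℝ) - Uᵀ * U) * b) * Uᵀ
      = κ ^ 2 • (U * (b * b) * Uᵀ) - U * b * Uᵀ * (U * b * Uᵀ) := by
    simp only [Matrix.mul_sub, Matrix.sub_mul, Matrix.mul_smul, Matrix.smul_mul, Matrix.mul_one,
      Matrix.mul_assoc]
  rw [e1, e2, Matrix.smul_mul, Matrix.mul_smul, smul_smul, smul_sub, smul_sub, smul_smul]
  have : (κ ^ 2)⁻¹ * (κ ^ 2)⁻¹ * κ ^ 2 = (κ ^ 2)⁻¹ := by
    field_simp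
  rw [this]
  abel

/-- `trace_kap_mul_le` against the partner `U b Uᵀ` -/
theorem kapU {κ : ℝ} (hκ : 0 < κ) {a a' : Matrix n n ℝ} {b : Matrix m m ℝ} {U : Matrix n m ℝ}
    (ha : a.PosSemidef) (ha1 : (1 - a).PosSemidef) (ha' : a'.PosSemidef)
    (hb : b.PosSemidef) (hb1 : (b - b * b).PosSemidef) (hU : Op κ U) :
    (kap a a' * (U * b * Uᵀ)).trace
      ≤ 4 * κ ^ 2 * (a * a').trace + (1 / 4) * (a' * (U * b * Uᵀ)).trace := by
  have h := trace_kap_mul_le ha ha1 ha'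
    ((par_psd hb U).smul (a := (κ ^ 2)⁻¹) (by positivity)) (par_sq hκ hb hb1 hU)
  rw [Matrix.mul_smul, Matrix.mul_smul, trace_smul, trace_smul, smul_eq_mul, smul_eq_mul] at h
  have hk : 0 < κ ^ 2 := by positivity
  have h2 := mul_le_mul_of_nonneg_left h hk.le
  have e1 : κ ^ 2 * ((κ ^ 2)⁻¹ * (kap a a' * (U * b * Uᵀ)).trace)
      = (kap a a' * (U * b * Uᵀ)).trace := by field_simp
  have e2 : κ ^ 2 * (4 * (a * a').trace + 1 / 4 * ((κ ^ 2)⁻¹ * (a' * (U * b * Uᵀ)).trace))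
      = 4 * κ ^ 2 * (a * a').trace + (1 / 4) * (a' * (U * b * Uᵀ)).trace := by field_simp
  rw [e1, e2] at h2
  exact h2

/-- Hilbert-Schmidt norm of `U D Uᵀ` -/
theorem sqU {κ : ℝ} {D : Matrix m m ℝ} (hD : Dᵀ = D) {U : Matrix n m ℝ} (hU : Op κ U) :
    (U * D * Uᵀ * (U * D * Uᵀ)).trace ≤ κ ^ 2 * κ ^ 2 * (D * D).trace := by
  have hG := psd_transpose_mul U
  have h1 := trace_mul_le_right (psd_conj_symm hG hD) hU.l
  have h2 := trace_mul_le_left (psd_sq hD) hU.l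
  have e1 : (U * D * Uᵀ * (U * D * Uᵀ)).trace = (D * (Uᵀ * U) * D * (Uᵀ * U)).trace := by
    have : U * D * Uᵀ * (U * D * Uᵀ) = U * (D * (Uᵀ * U) * D * Uᵀ) := by
      simp only [Matrix.mul_assoc]
    rw [this, trace_mul_comm]
    simp only [Matrix.mul_assoc]
  have e2 : (D * (Uᵀ * U) * D).trace = (Uᵀ * U * (D * D)).trace := by
    rw [Matrix.mul_assoc, trace_mul_comm, Matrix.mul_assoc]
  rw [Matrix.mul_smul, Matrix.mul_one, trace_smul, smul_eq_mul, e2] at h1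
  rw [Matrix.smul_mul, Matrix.one_mul, trace_smul, smul_eq_mul] at h2
  rw [e1]
  calc _ ≤ _ := h1
    _ ≤ κ ^ 2 * (κ ^ 2 * (D * D).trace) := mul_le_mul_of_nonneg_left h2 (by positivity)
    _ = _ := by ring

/-- AM-GM for the trace of a product of two symmetric matrices -/
theorem am_gm {κ : ℝ} (hκ : 0 < κ) {D F : Matrix n n ℝ} (hD : Dᵀ = D) (hF : Fᵀ = F) :
    -(1 / 2) * (κ ^ 2 * (D * D).trace) - (1 / 2) * ((κ ^ 2)⁻¹ * (F * F).trace)
      ≤ (D * F).trace ∧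
    (D * F).trace ≤ (1 / 2) * (κ ^ 2 * (D * D).trace) + (1 / 2) * ((κ ^ 2)⁻¹ * (F * F).trace) := by
  have hs : ∀ c : ℝ, 0 ≤ κ ^ 2 * (D * D).trace + 2 * c * (D * F).trace
      + c ^ 2 * ((κ ^ 2)⁻¹ * (F * F).trace) := by
    intro c
    have h := trace_sq_nonneg (B := κ • D + (c * κ⁻¹) • F)
      (by rw [transpose_add, transpose_smul, transpose_smul, hD, hF])
    have e : (κ • D + (c * κ⁻¹) • F) * (κ • D + (c * κ⁻¹) • F)
        = (κ ^ 2) • (D * D) + c • (D * F) + c • (F * D) + (c ^ 2 * (κ ^ 2)⁻¹) • (F * F) := by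
      simp only [Matrix.add_mul, Matrix.mul_add, Matrix.smul_mul, Matrix.mul_smul, smul_add,
        smul_smul]
      have e1 : κ * (c * κ⁻¹) = c := by field_simp
      have e1' : c * κ⁻¹ * κ = c := by field_simp
      have e2 : c * κ⁻¹ * (c * κ⁻¹) = c ^ 2 * (κ ^ 2)⁻¹ := by field_simp
      rw [e1, e1', e2, ← pow_two]
      abel
    rw [e, trace_add, trace_add, trace_add, trace_smul, trace_smul, trace_smul, trace_smul,
      trace_mul_comm F D] at h
    simp only [smul_eq_mul] at h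
    linarith
  have h1 := hs 1
  have h2 := hs (-1)
  constructor <;> linarith

/-- **Middle step with a multiplier.** -/
theorem ysplitU {κ : ℝ} (hκ : 0 < κ) {X r : Matrix n n ℝ} {Y r' : Matrix m m ℝ}
    {U : Matrix n m ℝ} (hX : X.PosSemidef) (hY : Y.PosSemidef) (hr : rᵀ = r) (hr2 : r * r = 1)
    (hr' : r'ᵀ = r') (hr2' : r' * r' = 1) (hU : Op κ U) (hc : r * U = U * r') :
    (phi X * (U * phi Y * Uᵀ)).trace + (1 / 2) * (phi X * (r * (U * phi Y * Uᵀ) * r)).trace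
      - 7 * κ ^ 2 * ((phi X * (r * phi X * r)).trace + (phi Y * (r' * phi Y * r')).trace)
    ≤ (1 / 2) * (phi (X + r * X * r) * (U * phi (Y + r' * Y * r') * Uᵀ)).trace := by
  have hX' := refl_psd hX hr
  have hY' := refl_psd hY hr'
  have ea : phi (r * X * r) = r * phi X * r := phi_refl hX hr hr2
  have eb : phi (r' * Y * r') = r' * phi Y * r' := phi_refl hY hr' hr2'
  have hct : Uᵀ * r = r' * Uᵀ := by
    have := congrArg transpose hc
    rwa [transpose_mul, transpose_mul, hr, hr'] at this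
  have hDX := Del_refl hX hr hr2
  have hDY := Del_refl hY hr' hr2'
  have hDXs := Del_symm hX hX'
  have hDYs := Del_symm hY hY'
  have sDX := trace_Del_sq_le hX hX'
  have sDY := trace_Del_sq_le hY hY'
  have kX : (Del X (r * X * r) * (U * phi Y * Uᵀ)).trace ≤
      4 * κ ^ 2 * (phi X * phi (r * X * r)).trace
        + (1 / 4) * (phi (r * X * r) * (U * phi Y * Uᵀ)).trace := by
    have k1 := kapU hκ (phi_psd hX) (one_sub_phi_psd hX) (phi_psd hX') (phi_psd hY)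
      (phi_sub_sq_psd hY) hU
    have k2 := trace_mul_nonneg (Gam_psd hX hX') (par_psd (phi_psd hY) U)
    rw [Del_eq, Matrix.sub_mul, trace_sub]
    linarith
  have kY : (Del Y (r' * Y * r') * (Uᵀ * phi X * U)).trace ≤
      4 * κ ^ 2 * (phi Y * phi (r' * Y * r')).trace
        + (1 / 4) * (phi (r' * Y * r') * (Uᵀ * phi X * U)).trace := by
    have k1 := kapU hκ (phi_psd hY) (one_sub_phi_psd hY) (phi_psd hY') (phi_psd hX)
      (phi_sub_sq_psd hX) hU.tr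
    have k2 := trace_mul_nonneg (Gam_psd hY hY') (par_psd (phi_psd hX) Uᵀ)
    rw [transpose_transpose] at k1 k2
    rw [Del_eq, Matrix.sub_mul, trace_sub]
    linarith
  have hS : phi (X + r * X * r) = phi X + phi (r * X * r) - Del X (r * X * r) := by
    rw [Del]; noncomm_ring
  have hR : phi (Y + r' * Y * r') = phi Y + phi (r' * Y * r') - Del Y (r' * Y * r') := by
    rw [Del]; noncomm_ring
  -- the partner matrices on the left space
  have cyc : ∀ A : Matrix m m ℝ, (A * (Uᵀ * phi X * U)).trace = (U * A * Uᵀ * phi X).trace := by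
    intro A
    rw [show A * (Uᵀ * phi X * U) = A * Uᵀ * phi X * U by simp only [Matrix.mul_assoc],
      trace_mul_comm]
    simp only [Matrix.mul_assoc]
  have conj : ∀ A : Matrix m m ℝ, U * (r' * A * r') * Uᵀ = r * (U * A * Uᵀ) * r := by
    intro A
    calc U * (r' * A * r') * Uᵀ = (U * r') * A * (r' * Uᵀ) := by simp only [Matrix.mul_assoc]
      _ = (r * U) * A * (Uᵀ * r) := by rw [hc, hct]
      _ = r * (U * A * Uᵀ) * r := by simp only [Matrix.mul_assoc]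
  rw [cyc, cyc] at kY
  have hFs : (U * Del Y (r' * Y * r') * Uᵀ)ᵀ = U * Del Y (r' * Y * r') * Uᵀ := by
    rw [transpose_mul, transpose_mul, transpose_transpose, hDYs]
    exact (Matrix.mul_assoc _ _ _).symm
  have hFr : r * (U * Del Y (r' * Y * r') * Uᵀ) * r = U * Del Y (r' * Y * r') * Uᵀ := by
    rw [← conj, hDY]
  have sF := sqU hDYs hU
  have hcross := (am_gm hκ hDXs hFs).1
  have hSF : (κ ^ 2)⁻¹ * (U * Del Y (r' * Y * r') * Uᵀ * (U * Del Y (r' * Y * r') * Uᵀ)).trace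
      ≤ κ ^ 2 * (12 * (phi Y * phi (r' * Y * r')).trace) := by
    calc _ ≤ (κ ^ 2)⁻¹ * (κ ^ 2 * κ ^ 2 * (Del Y (r' * Y * r') * Del Y (r' * Y * r')).trace) :=
          mul_le_mul_of_nonneg_left sF (by positivity)
      _ = κ ^ 2 * (Del Y (r' * Y * r') * Del Y (r' * Y * r')).trace := by field_simp
      _ ≤ _ := mul_le_mul_of_nonneg_left sDY (by positivity)
  have hSD : κ ^ 2 * (Del X (r * X * r) * Del X (r * X * r)).trace
      ≤ κ ^ 2 * (12 * (phi X * phi (r * X * r)).trace) :=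
    mul_le_mul_of_nonneg_left sDX (by positivity)
  rw [hS, hR]
  have hUR : U * (phi Y + phi (r' * Y * r') - Del Y (r' * Y * r')) * Uᵀ
      = U * phi Y * Uᵀ + r * (U * phi Y * Uᵀ) * r - U * Del Y (r' * Y * r') * Uᵀ := by
    rw [Matrix.mul_sub, Matrix.mul_add, Matrix.sub_mul, Matrix.add_mul, eb, conj]
  rw [hUR]
  rw [ea] at *
  rw [eb] at *
  rw [conj] at kY
  generalize Del X (r * X * r) = D at *
  generalize U * Del Y (r' * Y * r') * Uᵀ = F at *
  generalize phi X = a at *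
  generalize U * phi Y * Uᵀ = P at *
  have exp1 : (a + r * a * r - D) * (P + r * P * r - F)
      = a * P + a * (r * P * r) + r * a * r * P + r * a * r * (r * P * r)
        - D * P - D * (r * P * r) - a * F - r * a * r * F + D * F := by noncomm_ring
  have c1 : (r * a * r * (r * P * r)).trace = (a * P).trace := by
    rw [show r * a * r * (r * P * r) = r * (a * (r * r) * P * r) by noncomm_ring, hr2,
      trace_mul_comm, show a * 1 * P * r * r = a * P * (r * r) by noncomm_ring, hr2,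
      Matrix.mul_one]
  have c2 : (r * a * r * P).trace = (a * (r * P * r)).trace := by
    rw [show r * a * r * P = r * (a * r * P) by noncomm_ring, trace_mul_comm]
    congr 1; noncomm_ring
  have c3 : (D * (r * P * r)).trace = (D * P).trace := by
    conv_rhs => rw [← hDX]
    rw [show r * D * r * P = r * (D * r * P) by noncomm_ring, trace_mul_comm r]
    congr 1; noncomm_ring
  have c4 : (r * a * r * F).trace = (a * F).trace := by
    rw [show r * a * r * F = r * (a * r * F) by noncomm_ring, trace_mul_comm r,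
      show a * r * F * r = a * (r * F * r) by noncomm_ring, hFr]
  have c5 : (F * a).trace = (a * F).trace := trace_mul_comm _ _
  have c6 : (r * P * r * a).trace = (a * (r * P * r)).trace := trace_mul_comm _ _
  rw [exp1]
  simp only [trace_add, trace_sub]
  rw [c1, c2, c3, c4]
  rw [c2] at kX
  rw [c5, c6] at kY
  linarith

/-- `phi X ≤ X` -/
theorem phi_le {X : Matrix n n ℝ} (hX : X.PosSemidef) : (X - phi X).PosSemidef := by
  have h := psd_conj_symm (posDef_one_add hX).posSemidef (phi_symm hX)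
  convert h using 1
  rw [phi]
  have e : (1 - res X) * (1 + X) * (1 - res X)
      = (1 + X) - res X * (1 + X) - (1 + X) * res X + res X * (1 + X) * res X := by
    noncomm_ring
  rw [e, res_mul_one_add hX, one_add_mul_res hX, Matrix.one_mul]
  abel

/-- the mean of the two saturated children lies between `0` and the mean, and is a contraction -/
theorem mean_facts {X₀ X₁ : Matrix n n ℝ} (h0 : X₀.PosSemidef) (h1 : X₁.PosSemidef) :
    ((1 / 2 : ℝ) • (phi X₀ + phi X₁)).PosSemidef ∧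
    (1 - (1 / 2 : ℝ) • (phi X₀ + phi X₁)).PosSemidef ∧
    ((1 / 2 : ℝ) • (X₀ + X₁) - (1 / 2 : ℝ) • (phi X₀ + phi X₁)).PosSemidef := by
  refine ⟨((phi_psd h0).add (phi_psd h1)).smul (by norm_num), ?_, ?_⟩
  · have : 1 - (1 / 2 : ℝ) • (phi X₀ + phi X₁) = (1 / 2 : ℝ) • ((1 - phi X₀) + (1 - phi X₁)) := by
      module
    rw [this]
    exact ((one_sub_phi_psd h0).add (one_sub_phi_psd h1)).smul (by norm_num)
  · have : (1 / 2 : ℝ) • (X₀ + X₁) - (1 / 2 : ℝ) • (phi X₀ + phi X₁)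
        = (1 / 2 : ℝ) • ((X₀ - phi X₀) + (X₁ - phi X₁)) := by module
    rw [this]
    exact ((phi_le h0).add (phi_le h1)).smul (by norm_num)

/-- a PSD contraction dominates its square -/
theorem sq_le_of_le_one {A : Matrix n n ℝ} (hA : A.PosSemidef) (hA1 : (1 - A).PosSemidef) :
    (A - A * A).PosSemidef := by
  obtain ⟨B, hB, rfl⟩ := exists_sq hA
  have := psd_conj_symm hA1 (psd_isSymm hB)
  convert this using 1
  noncomm_ring

/-- Cauchy-Schwarz with AM-GM, rectangular: `2 |tr (Aᵀ B)| ≤ tr AᵀA + tr BᵀB` -/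
theorem two_tr_le (A B : Matrix n m ℝ) :
    2 * |(Aᵀ * B).trace| ≤ (Aᵀ * A).trace + (Bᵀ * B).trace := by
  have h1 := (psd_transpose_mul (A - B)).trace_nonneg
  have h2 := (psd_transpose_mul (A + B)).trace_nonneg
  have e : (Bᵀ * A).trace = (Aᵀ * B).trace := by
    rw [← trace_transpose, transpose_mul, transpose_transpose]
  simp only [transpose_sub, transpose_add, Matrix.sub_mul, Matrix.mul_sub, Matrix.add_mul,
    Matrix.mul_add, trace_sub, trace_add, e] at h1 h2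
  rcases abs_cases (Aᵀ * B).trace with ⟨h, _⟩ | ⟨h, _⟩ <;> rw [h] <;> linarith

/-- the sum of squares of `U D` for `|U| ≤ κ` -/
theorem mul_sq_le {κ : ℝ} {D : Matrix m m ℝ} (hD : Dᵀ = D) {U : Matrix n m ℝ} (hU : Op κ U) :
    ((U * D)ᵀ * (U * D)).trace ≤ κ ^ 2 * (D * D).trace := by
  have h2 := trace_mul_le_right (psd_sq hD) hU.l
  rw [Matrix.mul_smul, Matrix.mul_one, trace_smul, smul_eq_mul] at h2
  have e : ((U * D)ᵀ * (U * D)).trace = (D * D * (Uᵀ * U)).trace := by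
    rw [transpose_mul, hD, show D * Uᵀ * (U * D) = D * (Uᵀ * U) * D by simp only [Matrix.mul_assoc],
      trace_mul_cycle]
  rw [e]; exact h2

/-- **Outer step with a change of the multiplier.** Children `X₀, X₁`, `Y₀, Y₁`, `U₀, U₁`
(already paired), parent `(X₀ + X₁)/2`, `(Y₀ + Y₁)/2`, `U` with drift `D = U - (U₀ + U₁)/2`. -/
theorem xsplitU {κ : ℝ} (hκ : 0 < κ) {X₀ X₁ : Matrix n n ℝ} {Y₀ Y₁ : Matrix m m ℝ}
    {U U₀ U₁ : Matrix n m ℝ}
    (h0 : X₀.PosSemidef) (h1 : X₁.PosSemidef) (k0 : Y₀.PosSemidef) (k1 : Y₁.PosSemidef)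
    (hU : Op κ U) (hU0 : Op κ U₀) (hU1 : Op κ U₁) :
    (phi ((1 / 2 : ℝ) • (X₀ + X₁)) * (U * phi ((1 / 2 : ℝ) • (Y₀ + Y₁)) * Uᵀ)).trace
      ≤ (1 / 2) * ((phi X₀ * (U₀ * phi Y₀ * U₀ᵀ)).trace + (phi X₁ * (U₁ * phi Y₁ * U₁ᵀ)).trace)
        + 3 * κ ^ 2 * ((delt X₀ X₁).trace + (delt Y₀ Y₁).trace)
        + (((1 / 2 : ℝ) • (U₀ - U₁)) * ((1 / 2 : ℝ) • (U₀ - U₁))ᵀ
            * ((1 / 2 : ℝ) • (phi X₀ + phi X₁))).trace
        + (((1 / 2 : ℝ) • (U₀ - U₁))ᵀ * ((1 / 2 : ℝ) • (U₀ - U₁))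
            * ((1 / 2 : ℝ) • (phi Y₀ + phi Y₁))).trace
        + 2 * |(((1 / 2 : ℝ) • (phi X₀ + phi X₁)) * (U - (1 / 2 : ℝ) • (U₀ + U₁))
            * ((1 / 2 : ℝ) • (phi Y₀ + phi Y₁)) * Uᵀ).trace| := by
  obtain ⟨aP, a1, -⟩ := mean_facts h0 h1
  obtain ⟨bP, b1, -⟩ := mean_facts k0 k1
  have aQ := sq_le_of_le_one aP a1
  have bQ := sq_le_of_le_one bP b1
  have dX := delt_psd h0 h1
  have dY := delt_psd k0 k1
  have sX := R.hdiff_sq_le h0 h1
  have sY := R.hdiff_sq_le k0 k1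
  have tX := R.hdiff_symm h0 h1
  have tY := R.hdiff_symm k0 k1
  obtain ⟨hUm, hV⟩ := hU0.mean hU1
  have eX0 : phi X₀ = (1 / 2 : ℝ) • (phi X₀ + phi X₁) + hdiff X₀ X₁ := by
    rw [hdiff]; module
  have eX1 : phi X₁ = (1 / 2 : ℝ) • (phi X₀ + phi X₁) - hdiff X₀ X₁ := by
    rw [hdiff]; module
  have eY0 : phi Y₀ = (1 / 2 : ℝ) • (phi Y₀ + phi Y₁) + hdiff Y₀ Y₁ := by
    rw [hdiff]; module
  have eY1 : phi Y₁ = (1 / 2 : ℝ) • (phi Y₀ + phi Y₁) - hdiff Y₀ Y₁ := by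
    rw [hdiff]; module
  have eU0 : U₀ = (1 / 2 : ℝ) • (U₀ + U₁) + (1 / 2 : ℝ) • (U₀ - U₁) := by module
  have eU1 : U₁ = (1 / 2 : ℝ) • (U₀ + U₁) - (1 / 2 : ℝ) • (U₀ - U₁) := by module
  have eX : phi ((1 / 2 : ℝ) • (X₀ + X₁)) = (1 / 2 : ℝ) • (phi X₀ + phi X₁) + delt X₀ X₁ := by
    rw [delt]; abel
  have eY : phi ((1 / 2 : ℝ) • (Y₀ + Y₁)) = (1 / 2 : ℝ) • (phi Y₀ + phi Y₁) + delt Y₀ Y₁ := by
    rw [delt]; abel
  have phiY1 : (1 - phi ((1 / 2 : ℝ) • (Y₀ + Y₁))).PosSemidef := one_sub_phi_psd (half_psd k0 k1)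
  have phiYP : (phi ((1 / 2 : ℝ) • (Y₀ + Y₁))).PosSemidef := phi_psd (half_psd k0 k1)
  generalize hUmd : (1 / 2 : ℝ) • (U₀ + U₁) = M at *
  generalize hVd : (1 / 2 : ℝ) • (U₀ - U₁) = V at *
  generalize (1 / 2 : ℝ) • (phi X₀ + phi X₁) = a at *
  generalize (1 / 2 : ℝ) • (phi Y₀ + phi Y₁) = b at *
  generalize hdiff X₀ X₁ = d at *
  generalize hdiff Y₀ Y₁ = e at *
  generalize delt X₀ X₁ = p at *
  generalize delt Y₀ Y₁ = q at *
  have aS := psd_isSymm aP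
  have bS := psd_isSymm bP
  have hk : 0 < κ ^ 2 := by positivity
  -- the children
  have hch : (1 / 2 : ℝ) * ((phi X₀ * (U₀ * phi Y₀ * U₀ᵀ)).trace
      + (phi X₁ * (U₁ * phi Y₁ * U₁ᵀ)).trace)
      = (a * (M * b * Mᵀ)).trace + (a * (V * b * Vᵀ)).trace + (a * (M * e * Vᵀ)).trace
        + (a * (V * e * Mᵀ)).trace + (d * (M * e * Mᵀ)).trace + (d * (V * e * Vᵀ)).trace
        + (d * (M * b * Vᵀ)).trace + (d * (V * b * Mᵀ)).trace := by
    rw [eX0, eX1, eY0, eY1, eU0, eU1]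
    simp only [transpose_add, transpose_sub, Matrix.add_mul, Matrix.mul_add, Matrix.sub_mul,
      Matrix.mul_sub, trace_add, trace_sub]
    ring
  -- symmetric pairs
  have s1 : (a * (V * e * Mᵀ)).trace = (a * (M * e * Vᵀ)).trace := by
    rw [← trace_transpose]
    simp only [transpose_mul, transpose_transpose, aS, tY]
    rw [trace_mul_comm]
    simp only [Matrix.mul_assoc]
  have s2 : (d * (V * b * Mᵀ)).trace = (d * (M * b * Vᵀ)).trace := by
    rw [← trace_transpose]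
    simp only [transpose_mul, transpose_transpose, bS, tX]
    rw [trace_mul_comm]
    simp only [Matrix.mul_assoc]
  -- the seven error terms
  have r1 : 0 ≤ (a * (V * b * Vᵀ)).trace := trace_mul_nonneg aP (psd_conj bP V)
  have r2 : 2 * |(a * (M * e * Vᵀ)).trace| ≤ (V * Vᵀ * a).trace + κ ^ 2 * q.trace := by
    have h := two_tr_le (a * V) (M * e)
    have c1 : ((a * V)ᵀ * (M * e)).trace = (a * (M * e * Vᵀ)).trace := by
      rw [transpose_mul, aS, trace_mul_comm, ← Matrix.mul_assoc, trace_mul_comm]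
    have c2 : ((a * V)ᵀ * (a * V)).trace ≤ (V * Vᵀ * a).trace := by
      have h3 := trace_mul_le_right (psd_mul_transpose V) aQ
      have : ((a * V)ᵀ * (a * V)).trace = (V * Vᵀ * (a * a)).trace := by
        rw [transpose_mul, aS, show Vᵀ * a * (a * V) = Vᵀ * (a * a) * V by
          simp only [Matrix.mul_assoc], trace_mul_cycle]
      rw [this]; exact h3
    have c3 := mul_sq_le tY hUm
    rw [c1] at h
    nlinarith
  have r3 : 2 * |(d * (M * b * Vᵀ)).trace| ≤ (Vᵀ * V * b).trace + κ ^ 2 * p.trace := by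
    have h := two_tr_le (d * M) (V * b)
    have c1 : ((d * M)ᵀ * (V * b)).trace = (d * (V * b * Mᵀ)).trace := by
      rw [transpose_mul, tX, trace_mul_comm, ← Matrix.mul_assoc, trace_mul_comm]
    have c2 : ((V * b)ᵀ * (V * b)).trace ≤ (Vᵀ * V * b).trace := by
      have h3 := trace_mul_le_right (psd_transpose_mul V) bQ
      have : ((V * b)ᵀ * (V * b)).trace = (Vᵀ * V * (b * b)).trace := by
        rw [transpose_mul, bS, show b * Vᵀ * (V * b) = b * (Vᵀ * V) * b by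
          simp only [Matrix.mul_assoc], trace_mul_cycle, Matrix.mul_assoc, trace_mul_comm,
          Matrix.mul_assoc, trace_mul_comm]
        simp only [Matrix.mul_assoc]
      rw [this]; exact h3
    have c3 : ((d * M)ᵀ * (d * M)).trace ≤ κ ^ 2 * (d * d).trace := by
      have h4 := mul_sq_le tX hUm.tr
      have : ((d * M)ᵀ * (d * M)).trace = ((Mᵀ * d)ᵀ * (Mᵀ * d)).trace := by
        rw [transpose_mul, transpose_mul, tX, transpose_transpose, trace_mul_comm]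
      rw [this]; exact h4
    rw [c1, s2] at h
    nlinarith
  have r45 : ∀ W : Matrix n m ℝ, Op κ W →
      |(d * (W * e * Wᵀ)).trace| ≤ (1 / 2) * κ ^ 2 * (p.trace + q.trace) := by
    intro W hW
    have hWs : (W * e * Wᵀ)ᵀ = W * e * Wᵀ := by
      rw [transpose_mul, transpose_mul, transpose_transpose, tY, Matrix.mul_assoc]
    obtain ⟨g1, g2⟩ := am_gm hκ tX hWs
    have g3 := sqU tY hW
    have g4 : (κ ^ 2)⁻¹ * (W * e * Wᵀ * (W * e * Wᵀ)).trace ≤ κ ^ 2 * q.trace := by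
      calc _ ≤ (κ ^ 2)⁻¹ * (κ ^ 2 * κ ^ 2 * (e * e).trace) :=
            mul_le_mul_of_nonneg_left g3 (by positivity)
        _ = κ ^ 2 * (e * e).trace := by field_simp
        _ ≤ _ := mul_le_mul_of_nonneg_left sY (by positivity)
    have g5 : κ ^ 2 * (d * d).trace ≤ κ ^ 2 * p.trace := mul_le_mul_of_nonneg_left sX hk.le
    rw [abs_le]
    constructor <;> linarith
  have r4 := r45 M hUm
  have r5 := r45 V hV
  -- the parent
  have t1 : (p * (U * phi ((1 / 2 : ℝ) • (Y₀ + Y₁)) * Uᵀ)).trace ≤ κ ^ 2 * p.trace := by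
    have h3 : (U * Uᵀ - U * phi ((1 / 2 : ℝ) • (Y₀ + Y₁)) * Uᵀ).PosSemidef := by
      have := psd_conj phiY1 U
      convert this using 1
      rw [Matrix.mul_sub, Matrix.mul_one, Matrix.sub_mul]
    have h4 := trace_mul_le_right dX h3
    have h5 := trace_mul_le_right dX hU.r
    rw [Matrix.mul_smul, Matrix.mul_one, trace_smul, smul_eq_mul] at h5
    exact h4.trans h5
  have t2 : (a * (U * q * Uᵀ)).trace ≤ κ ^ 2 * q.trace := by
    have h3 := trace_mul_le_left (psd_conj dY U) a1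
    have h4 := trace_mul_le_right dY hU.l
    rw [Matrix.mul_smul, Matrix.mul_one, trace_smul, smul_eq_mul] at h4
    have h5 : (U * q * Uᵀ).trace = (q * (Uᵀ * U)).trace := by
      rw [trace_mul_cycle, trace_mul_comm]
    rw [Matrix.one_mul, h5] at h3
    exact h3.trans h4
  have t3 : (a * (U * b * Uᵀ)).trace
      ≤ (a * (M * b * Mᵀ)).trace + 2 * |(a * (U - M) * b * Uᵀ).trace| := by
    have h3 : 0 ≤ (a * ((U - M) * b * (U - M)ᵀ)).trace := trace_mul_nonneg aP (psd_conj bP _)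
    have h4 : (a * (U * b * (U - M)ᵀ)).trace = (a * (U - M) * b * Uᵀ).trace := by
      rw [← trace_transpose]
      simp only [transpose_mul, transpose_transpose, aS, bS]
      rw [trace_mul_comm]
      simp only [Matrix.mul_assoc]
    have h5 : (a * (U - M) * b * Uᵀ).trace = (a * ((U - M) * b * Uᵀ)).trace := by
      simp only [Matrix.mul_assoc]
    have h6 : a * (U * b * Uᵀ) = a * (M * b * Mᵀ) + a * ((U - M) * b * Uᵀ)
        + a * (U * b * (U - M)ᵀ) - a * ((U - M) * b * (U - M)ᵀ) := by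
      simp only [transpose_sub, Matrix.sub_mul, Matrix.mul_sub]
      abel
    have h7 := congrArg trace h6
    rw [trace_sub, trace_add, trace_add, h4, ← h5] at h7
    have h8 := le_abs_self (a * (U - M) * b * Uᵀ).trace
    linarith
  have hpar : (phi ((1 / 2 : ℝ) • (X₀ + X₁)) * (U * phi ((1 / 2 : ℝ) • (Y₀ + Y₁)) * Uᵀ)).trace
      = (a * (U * b * Uᵀ)).trace + (a * (U * q * Uᵀ)).trace
        + (p * (U * phi ((1 / 2 : ℝ) • (Y₀ + Y₁)) * Uᵀ)).trace := by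
    rw [eX, Matrix.add_mul, trace_add]
    congr 1
    rw [eY, Matrix.mul_add, Matrix.add_mul, Matrix.mul_add, trace_add]
  rw [hpar, hch, s1, s2]
  have b2 := neg_abs_le (a * (M * e * Vᵀ)).trace
  have b3 := neg_abs_le (d * (M * b * Vᵀ)).trace
  have b4 := neg_abs_le (d * (M * e * Mᵀ)).trace
  have b5 := neg_abs_le (d * (V * e * Vᵀ)).trace
  linarith

/-! ### the case `κ = 1` -/

theorem op_one {U : Matrix n m ℝ} (h : (1 - Uᵀ * U).PosSemidef) (h' : (1 - U * Uᵀ).PosSemidef) :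
    Op 1 U :=
  ⟨by rw [one_pow, one_smul]; exact h, by rw [one_pow, one_smul]; exact h'⟩

/-- middle step, `|U| ≤ 1`, `U` square and commuting with the sign -/
theorem ysplit1 {X Y r U : Matrix n n ℝ} (hX : X.PosSemidef) (hY : Y.PosSemidef) (hr : rᵀ = r)
    (hr2 : r * r = 1) (hU : (1 - Uᵀ * U).PosSemidef) (hU' : (1 - U * Uᵀ).PosSemidef)
    (hc : r * U = U * r) :
    (phi X * (U * phi Y * Uᵀ)).trace + (1 / 2) * (phi X * (r * (U * phi Y * Uᵀ) * r)).trace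
      - 7 * ((phi X * (r * phi X * r)).trace + (phi Y * (r * phi Y * r)).trace)
    ≤ (1 / 2) * (phi (X + r * X * r) * (U * phi (Y + r * Y * r) * Uᵀ)).trace := by
  have h := ysplitU one_pos hX hY hr hr2 hr hr2 (op_one hU hU') hc
  rwa [one_pow, mul_one] at h

/-- outer step, `|U| ≤ 1` -/
theorem xsplit1 {X₀ X₁ Y₀ Y₁ U U₀ U₁ : Matrix n n ℝ}
    (h0 : X₀.PosSemidef) (h1 : X₁.PosSemidef) (k0 : Y₀.PosSemidef) (k1 : Y₁.PosSemidef)
    (hU : (1 - Uᵀ * U).PosSemidef) (hU' : (1 - U * Uᵀ).PosSemidef)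
    (hU0 : (1 - U₀ᵀ * U₀).PosSemidef) (hU0' : (1 - U₀ * U₀ᵀ).PosSemidef)
    (hU1 : (1 - U₁ᵀ * U₁).PosSemidef) (hU1' : (1 - U₁ * U₁ᵀ).PosSemidef) :
    (phi ((1 / 2 : ℝ) • (X₀ + X₁)) * (U * phi ((1 / 2 : ℝ) • (Y₀ + Y₁)) * Uᵀ)).trace
      ≤ (1 / 2) * ((phi X₀ * (U₀ * phi Y₀ * U₀ᵀ)).trace + (phi X₁ * (U₁ * phi Y₁ * U₁ᵀ)).trace)
        + 3 * ((delt X₀ X₁).trace + (delt Y₀ Y₁).trace)
        + (((1 / 2 : ℝ) • (U₀ - U₁)) * ((1 / 2 : ℝ) • (U₀ - U₁))ᵀ
            * ((1 / 2 : ℝ) • (phi X₀ + phi X₁))).trace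
        + (((1 / 2 : ℝ) • (U₀ - U₁))ᵀ * ((1 / 2 : ℝ) • (U₀ - U₁))
            * ((1 / 2 : ℝ) • (phi Y₀ + phi Y₁))).trace
        + 2 * |(((1 / 2 : ℝ) • (phi X₀ + phi X₁)) * (U - (1 / 2 : ℝ) • (U₀ + U₁))
            * ((1 / 2 : ℝ) • (phi Y₀ + phi Y₁)) * Uᵀ).trace| := by
  have h := xsplitU one_pos h0 h1 k0 k1 (op_one hU hU') (op_one hU0 hU0') (op_one hU1 hU1')
  rwa [one_pow, mul_one] at h

/-- a PSD weight against the saturated mean is at most the weight against the mean -/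
theorem weight_le {W X₀ X₁ : Matrix n n ℝ} (hW : W.PosSemidef) (h0 : X₀.PosSemidef)
    (h1 : X₁.PosSemidef) :
    (W * ((1 / 2 : ℝ) • (phi X₀ + phi X₁))).trace ≤ (W * ((1 / 2 : ℝ) • (X₀ + X₁))).trace :=
  trace_mul_le_right hW (mean_facts h0 h1).2.2

end Vale.Agent.P141.H588G.YU
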